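import Vale.Agent.P155.T211B.Geo
import Vale.Agent.P155.BD.Props

/-!
# P155, BD block, B3: Riemann maps of the polygon (`RMEX`, `SP`), the metric `dd`
-/

open Set Metric Function
open Vale.Agent.P155.KConn

namespace Vale.Agent.P155.T211B

open Vale.Agent.P155 LatCycle

/-- the inverse of a conformal map onto the disc -/
theorem exists_inverse {V : Set ℂ} (hV : IsOpen V) {g : ℂ → ℂ} (h1 : DifferentiableOn ℂ g V)
    (h2 : InjOn g V) (h3 : g '' V = ball 0 1) (h4 : ∀ z ∈ V, deriv g z ≠ 0) :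
    ∃ f : ℂ → ℂ, DifferentiableOn ℂ f (ball 0 1) ∧ (∀ w ∈ ball (0 : ℂ) 1, f w ∈ V) ∧
      (∀ w ∈ ball (0 : ℂ) 1, g (f w) = w) ∧ ∀ z ∈ V, f (g z) = z := by
  have hsd : ∀ z ∈ V, HasStrictDerivAt g (deriv g z) z := fun z hz =>
    (h1.analyticOnNhd hV z hz).hasStrictDerivAt
  set f : ℂ → ℂ := invFunOn g V with hf
  have hfU : ∀ w ∈ ball (0 : ℂ) 1, f w ∈ V ∧ g (f w) = w := by
    intro w hw
    rw [← h3] at hw
    exact ⟨invFunOn_mem hw, invFunOn_eq hw⟩
  have hcont : ∀ w ∈ ball (0 : ℂ) 1, ContinuousAt f w := by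
    intro w hw
    obtain ⟨hz, hgz⟩ := hfU w hw
    rw [ContinuousAt, Filter.tendsto_def]
    intro s hs
    have h6 : g '' (s ∩ V) ∈ nhds (g (f w)) := by
      rw [← (hsd _ hz).map_nhds_eq (h4 _ hz)]
      exact Filter.image_mem_map (Filter.inter_mem hs (hV.mem_nhds hz))
    rw [hgz] at h6
    filter_upwards [h6] with y hy
    obtain ⟨x, ⟨hxs, hxU⟩, rfl⟩ := hy
    have hy' : g x ∈ ball (0 : ℂ) 1 := by rw [← h3]; exact mem_image_of_mem _ hxU
    have := h2 (hfU _ hy').1 hxU (hfU _ hy').2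
    show f (g x) ∈ s
    rw [this]; exact hxs
  have hder : ∀ w ∈ ball (0 : ℂ) 1, HasStrictDerivAt f (deriv g (f w))⁻¹ w := by
    intro w hw
    obtain ⟨hz, hgz⟩ := hfU w hw
    refine HasStrictDerivAt.of_local_left_inverse (hcont w hw) (hsd _ hz) (h4 _ hz) ?_
    filter_upwards [isOpen_ball.mem_nhds hw] with y hy
    exact (hfU y hy).2
  refine ⟨f, fun w hw => (hder w hw).hasDerivAt.differentiableAt.differentiableWithinAt,
    fun w hw => (hfU w hw).1, fun w hw => (hfU w hw).2, fun z hz => ?_⟩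
  have hy' : g z ∈ ball (0 : ℂ) 1 := by rw [← h3]; exact mem_image_of_mem _ hz
  exact h2 (hfU _ hy').1 hz (hfU _ hy').2

theorem BD_UU_eq (T : Temp) : BD.UU T = UU T 2 0 := by
  have := UU_eq (δ := 1) one_pos 0 T
  rw [mul_one] at this
  exact this.symm

/-- **[RMEX]** -/
theorem rmex : BD.RMEX := by
  intro T z₀ hz₀
  rw [BD_UU_eq] at hz₀
  obtain ⟨g, h1, h2, h3, h4, h5⟩ := exists_riemann two_pos 0 T hz₀
  obtain ⟨f, f1, f2, f3, f4⟩ := exists_inverse (UU_open T 2 0) h1 h2 h3 h4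
  refine ⟨f, g, ⟨f1, ?_, ?_, ?_, f3, ?_⟩, ?_⟩
  · rw [BD_UU_eq]; exact f2
  · rw [BD_UU_eq]; exact h1
  · rw [BD_UU_eq]; intro z hz; rw [← h3]; exact mem_image_of_mem _ hz
  · rw [BD_UU_eq]; exact f4
  · rw [← h5]; exact f4 z₀ hz₀

/-- the chosen Riemann map is one -/
theorem rmap_spec (T : Temp) : ∃ f, BD.RM T f (BD.rmap T) := by
  have hex : ∃ φ : ℂ → ℂ, ∃ f, BD.RM T f φ := by
    obtain ⟨F, hF⟩ := cells_nonempty T
    have : ctr 2 0 F ∈ BD.UU T := by rw [BD_UU_eq]; exact ctr_mem two_pos hF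
    obtain ⟨f, φ, h, _⟩ := rmex T _ this
    exact ⟨φ, f, h⟩
  unfold BD.rmap
  rw [dif_pos hex]
  exact hex.choose_spec

theorem _root_.Vale.Agent.P155.BD.RM.lt {T : Temp} {f φ : ℂ → ℂ} (h : BD.RM T f φ) {z : ℂ}
    (hz : z ∈ BD.UU T) : ‖φ z‖ < 1 := by
  have := h.maps' z hz
  rwa [mem_ball_zero_iff] at this

theorem del_eq_HH {z w : ℂ} : BD.HH z w = 1 / del z w := by
  unfold BD.HH del
  rw [one_div_div, norm_sq_id, BD.id1, norm_sub_rev, mul_comm (1 - ‖z‖ ^ 2)]

/-- **[SP]** -/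
theorem sp : BD.SP := by
  intro T f φ h z hz z' hzz
  have hop : IsOpen (BD.UU T) := isOpen_interior
  have hne : (BD.UU T)ᶜ.Nonempty := by
    rw [BD_UU_eq, nonempty_compl]; exact UU_ne_univ two_pos 0 T
  have hr : 0 < BD.dU T z := by
    have hcl : IsClosed (BD.UU T)ᶜ := hop.isClosed_compl
    exact (hcl.notMem_iff_infDist_pos hne).1 (by simpa using hz)
  have hball : ball z (BD.dU T z) ⊆ BD.UU T := by
    intro w hw
    by_contra hcon
    have := infDist_le_dist_of_mem (x := z) (s := (BD.UU T)ᶜ) hcon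
    rw [mem_ball, dist_comm] at hw
    exact absurd hw (not_lt.2 this)
  have hz' : z' ∈ ball z (BD.dU T z) := by
    rw [mem_ball, dist_eq_norm, norm_sub_rev]; linarith
  have h1 := hyp_le_of_ball hr (h.hφ.mono hball) (fun w hw => h.lt (hball hw)) (z := z') (by
    rw [norm_sub_rev]; linarith)
  have h2 : ‖z' - z‖ / BD.dU T z ≤ 1 / 2 := by
    rw [div_le_iff₀ hr, norm_sub_rev]; linarith
  rw [BD.HH_comm, del_eq_HH]
  have hd := del_pos (h.lt (hball hz')) (h.lt hz)
  rw [div_le_iff₀ hd]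
  -- `hyp ≤ 3/2` gives only `1/del ≤ e^{3/2}`: use the Schwarz lemma directly
  have hz₀ : z ∈ ball z (BD.dU T z) := mem_ball_self hr
  set c := φ z with hc
  have hcl := h.lt hz
  set g : ℂ → ℂ := fun u => (φ u - c) / (1 - (starRingEnd ℂ) c * φ u) with hg
  have hden : ∀ u ∈ ball z (BD.dU T z), 1 - (starRingEnd ℂ) c * φ u ≠ 0 := by
    intro u hu h0
    have := mob_den_pos (h.lt (hball hu)) hcl
    rw [← hc, h0, norm_zero] at this
    norm_num at this
  have hgd : DifferentiableOn ℂ g (ball z (BD.dU T z)) :=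
    ((h.hφ.mono hball).sub_const _).div
      ((differentiableOn_const 1).sub ((h.hφ.mono hball).const_mul _)) hden
  have hg0 : g z = 0 := by simp [hg, hc]
  have hmaps : MapsTo g (ball z (BD.dU T z)) (closedBall (g z) 1) := by
    intro u hu
    rw [hg0, mem_closedBall_zero_iff]
    exact (mob_lt (h.lt (hball hu)) hcl).le
  have h3 := Complex.dist_le_div_mul_dist_of_mapsTo_ball hgd hmaps hz'
  rw [hg0, dist_zero_right, dist_eq_norm] at h3
  have h4 : ‖g z'‖ ≤ 1 / 2 := by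
    refine h3.trans ?_
    have : 1 / BD.dU T z * ‖z' - z‖ = ‖z' - z‖ / BD.dU T z := by ring
    rw [this]; exact h2
  have h5 := mob_norm_sq (h.lt (hball hz')) hcl
  have h6 : ‖(φ z' - c) / (1 - (starRingEnd ℂ) c * φ z')‖ ^ 2 ≤ (1 / 2) ^ 2 :=
    pow_le_pow_left₀ (norm_nonneg _) h4 2
  rw [h5] at h6
  linarith

/-! ### the metric `dd` -/

theorem log_HH_le {z w : ℂ} (hz : ‖z‖ < 1) (hw : ‖w‖ < 1) : Real.log (BD.HH z w) ≤ hyp z w := by
  have h1 := exp_neg_hyp_le hz hw
  have h2 := del_pos hz hw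
  rw [del_eq_HH, one_div, Real.log_inv]
  have h3 : -hyp z w ≤ Real.log (del z w) := by
    rw [← Real.log_exp (-hyp z w)]
    exact Real.log_le_log (Real.exp_pos _) h1
  linarith

theorem hyp_le_log_HH {z w : ℂ} (hz : ‖z‖ < 1) (hw : ‖w‖ < 1) :
    hyp z w ≤ Real.log (4 * BD.HH z w) := by
  have h1 := del_le_exp hz hw
  have h2 := del_pos hz hw
  rw [del_eq_HH, mul_one_div, Real.log_div (by norm_num) h2.ne']
  have h3 : Real.log (del z w) ≤ Real.log 4 - hyp z w := by
    have : Real.log (4 * Real.exp (-hyp z w)) = Real.log 4 - hyp z w := by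
      rw [Real.log_mul (by norm_num) (Real.exp_pos _).ne', Real.log_exp]; ring
    rw [← this]
    exact Real.log_le_log h2 h1
  linarith

/-- centres of fine faces -/
theorem cf_eq (x : Pt) : BD.cf x = cc x := by
  apply Complex.ext <;> simp [BD.cf, cc]

theorem cf_mem {T : Temp} {x : Pt} (hx : x ∈ T.faceSet) : BD.cf x ∈ BD.UU T := by
  have h1 : BD.cf x = ctr 1 0 x := by
    rw [cf_eq]
    apply Complex.ext <;> simp [ctr, pt, cc]
  rw [h1]
  exact ctr_mem one_pos hx

theorem exists_notMem_faceSet (T : Temp) : ∃ y, y ∉ T.faceSet := by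
  obtain ⟨F, hF⟩ := exists_notMem_cells T
  refine ⟨(2 * F.1, 2 * F.2), fun h => hF ?_⟩
  rw [A1.mem_faceSet] at h
  have e1 : (2 * F.1) / 2 = F.1 := by omega
  have e2 : (2 * F.2) / 2 = F.2 := by omega
  simp only [e1, e2] at h
  exact h

/-- the big ball around the centre of a fine face -/
theorem ball_cf {T : Temp} {x : Pt} :
    ball (BD.cf x) ((dF T.faceSet x : ℝ) - 1 / 2) ⊆ BD.UU T := by
  intro w hw
  rw [cf_eq] at hw
  obtain ⟨h1, h2⟩ := ball_coord hw
  unfold BD.UU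
  rw [mem_interior_region_iff one_pos]
  intro k hk
  have hk : w ∈ sq k := hk
  rw [mem_sq] at hk
  obtain ⟨k1, k2, k3, k4⟩ := hk
  simp only [cc] at h1 h2
  rw [abs_lt] at h1 h2
  by_contra hkD
  have hle := H904.dF_le (x := x) hkD
  obtain ⟨-, hs⟩ := H904.dn_spec x k
  have a1 : (k.1 : ℝ) < x.1 + dF T.faceSet x := by linarith
  have a2 : (x.1 : ℝ) < k.1 + dF T.faceSet x := by linarith
  have a3 : (k.2 : ℝ) < x.2 + dF T.faceSet x := by linarith
  have a4 : (x.2 : ℝ) < k.2 + dF T.faceSet x := by linarith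
  have b1 : k.1 < x.1 + dF T.faceSet x := by exact_mod_cast a1
  have b2 : x.1 < k.1 + dF T.faceSet x := by exact_mod_cast a2
  have b3 : k.2 < x.2 + dF T.faceSet x := by exact_mod_cast a3
  have b4 : x.2 < k.2 + dF T.faceSet x := by exact_mod_cast a4
  omega

open Classical in
/-- the distance `dd`, made `0` off the polygon -/
noncomputable def dd' (T : Temp) (x y : Pt) : ℝ :=
  if x ∈ T.faceSet ∧ y ∈ T.faceSet then BD.dd T x y else 0

theorem dd'_of {T : Temp} {x y : Pt} (hx : x ∈ T.faceSet) (hy : y ∈ T.faceSet) :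
    dd' T x y = BD.dd T x y := by unfold dd'; rw [if_pos ⟨hx, hy⟩]

theorem dd_nonneg {T : Temp} {x y : Pt} (hx : x ∈ T.faceSet) (hy : y ∈ T.faceSet) :
    0 ≤ BD.dd T x y := by
  obtain ⟨f, h⟩ := rmap_spec T
  have h1 := h.lt (cf_mem hx)
  have h2 := h.lt (cf_mem hy)
  exact (hyp_nonneg _ _).trans (hyp_le_log_HH h1 h2)

/-- **`dd` is a metric in the sense of `PAIR`** -/
theorem met_dd' : BD.Met dd' (Real.log 8) := by
  refine ⟨?_, ?_, ?_, ?_⟩
  · intro T x hx y hy
    rw [dd'_of hx hy]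
    exact dd_nonneg hx hy
  · intro T x y
    unfold dd'
    by_cases h : x ∈ T.faceSet ∧ y ∈ T.faceSet
    · rw [if_pos h, if_pos ⟨h.2, h.1⟩]
      unfold BD.dd
      rw [BD.HH_comm]
    · rw [if_neg h, if_neg (fun h' => h ⟨h'.2, h'.1⟩)]
  · intro T x hx y hy z hz
    rw [dd'_of hx hz, dd'_of hx hy, dd'_of hy hz]
    obtain ⟨f, h⟩ := rmap_spec T
    have h1 := h.lt (cf_mem hx)
    have h2 := h.lt (cf_mem hy)
    have h3 := h.lt (cf_mem hz)
    have a1 := BD.one_le_HH h1 h2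
    have a2 := BD.one_le_HH h2 h3
    have a3 := BD.one_le_HH h1 h3
    have a4 := BD.HH_tri h1 h2 h3
    unfold BD.dd
    rw [← Real.log_mul (by positivity) (by positivity)]
    refine Real.log_le_log (by positivity) ?_
    nlinarith
  · intro T z hz x hx hzx
    rw [dd'_of hz hx]
    obtain ⟨f, h⟩ := rmap_spec T
    have h1 := h.lt (cf_mem hz)
    have h2 := h.lt (cf_mem hx)
    unfold BD.dd
    have hHH : BD.HH (BD.rmap T (BD.cf z)) (BD.rmap T (BD.cf x)) ≤ 2 := by
      rcases Nat.eq_zero_or_pos (dn z x) with h0 | h0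
      · have e : z = x := by
          obtain ⟨⟨s1, s2, s3, s4⟩, -⟩ := H904.dn_spec z x
          exact Prod.ext (by omega) (by omega)
        rw [e, del_eq_HH]
        have : del (BD.rmap T (BD.cf x)) (BD.rmap T (BD.cf x)) = 1 := by
          have h5 := mob_norm_sq h2 h2
          rw [sub_self, zero_div, norm_zero] at h5
          norm_num at h5
          linarith
        rw [this]; norm_num
      · refine sp T f _ h _ (cf_mem hz) _ ?_
        have hdU : (dF T.faceSet z : ℝ) - 1 / 2 ≤ BD.dU T (BD.cf z) := by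
          unfold BD.dU
          have hne : (BD.UU T)ᶜ.Nonempty := by
            rw [BD_UU_eq, nonempty_compl]; exact UU_ne_univ two_pos 0 T
          refine (le_infDist hne).2 fun y hy => ?_
          by_contra hcon
          push Not at hcon
          exact hy (ball_cf (by rwa [mem_ball, dist_comm]))
        refine le_trans ?_ hdU
        have hd4 : (4 * (dn z x : ℝ)) ≤ dF T.faceSet z := by exact_mod_cast hzx
        have hd0 : (1 : ℝ) ≤ dn z x := by exact_mod_cast h0
        have hsq : ‖BD.cf z - BD.cf x‖ ^ 2 ≤ 2 * (dn z x : ℝ) ^ 2 := by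
          rw [← Complex.normSq_eq_norm_sq, Complex.normSq_apply, cf_eq, cf_eq]
          obtain ⟨⟨s1, s2, s3, s4⟩, -⟩ := H904.dn_spec z x
          have t1 : (z.1 : ℝ) - x.1 ≤ dn z x := by exact_mod_cast s1
          have t2 : (x.1 : ℝ) - z.1 ≤ dn z x := by exact_mod_cast s2
          have t3 : (z.2 : ℝ) - x.2 ≤ dn z x := by exact_mod_cast s3
          have t4 : (x.2 : ℝ) - z.2 ≤ dn z x := by exact_mod_cast s4
          have e1 : (cc z - cc x).re = z.1 - x.1 := by simp [cc]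
          have e2 : (cc z - cc x).im = z.2 - x.2 := by simp [cc]
          rw [e1, e2]
          nlinarith
        have hn := norm_nonneg (BD.cf z - BD.cf x)
        nlinarith
    refine Real.log_le_log (by
      have := BD.one_le_HH h1 h2
      positivity) ?_
    linarith

/-- `dd` itself -/
theorem met_dd : BD.Met BD.dd (Real.log 8) := by
  have h := met_dd'
  refine ⟨fun T x hx y hy => dd_nonneg hx hy, fun T x y => by unfold BD.dd; rw [BD.HH_comm],
    fun T x hx y hy z hz => ?_, fun T z hz x hx hzx => ?_⟩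
  · have := h.tri T x hx y hy z hz
    rwa [dd'_of hx hz, dd'_of hx hy, dd'_of hy hz] at this
  · have := h.near T z hz x hx hzx
    rwa [dd'_of hz hx] at this

/-! ### comparison with the metric of the cells -/

/-- the Riemann map in coarse units -/
theorem isRM_of {T : Temp} {f φ : ℂ → ℂ} (h : BD.RM T f φ) : IsRM T (fun z => φ (2 * z)) := by
  have hU : ∀ z : ℂ, z ∈ U T ↔ 2 * z ∈ BD.UU T := by
    intro z
    rw [BD_UU_eq]
    unfold U UU
    rw [mem_interior_region_iff one_pos, mem_interior_region_iff two_pos]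
    have : ∀ g : Pt, z ∈ sqr 1 0 g ↔ 2 * z ∈ sqr 2 0 g := by
      intro g
      rw [mem_sqr one_pos, mem_sqr two_pos]
      simp [gx, gy]
    simp only [this]
  refine ⟨?_, ?_, ?_⟩
  · refine h.hφ.comp (differentiableOn_id.const_mul 2) fun z hz => (hU z).1 hz
  · intro z hz w hw hzw
    have h1 := (hU z).1 hz
    have h2 := (hU w).1 hw
    have h3 : f (φ (2 * z)) = f (φ (2 * w)) := congrArg f hzw
    rw [h.right _ h1, h.right _ h2] at h3
    linear_combination h3 / 2
  · apply Subset.antisymm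
    · rintro _ ⟨z, hz, rfl⟩
      exact h.maps' _ ((hU z).1 hz)
    · intro w hw
      refine ⟨f w / 2, ?_, ?_⟩
      · rw [hU, mul_div_cancel₀ _ two_ne_zero]
        exact h.maps w hw
      · simp only
        rw [mul_div_cancel₀ _ two_ne_zero]
        exact h.left w hw

/-- the coarse cell of a fine face -/
def cell (x : Pt) : Pt := (x.1 / 2, x.2 / 2)

theorem cell_mem {T : Temp} {x : Pt} (hx : x ∈ T.faceSet) : cell x ∈ T.cells := A1.mem_faceSet.1 hx

/-- a fine face and the centre of its cell -/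
theorem hyp_cell_fine {T : Temp} {f φ : ℂ → ℂ} (h : BD.RM T f φ) {x : Pt} (hx : x ∈ T.faceSet) :
    hyp (φ (BD.cf x)) (φ (2 * cc (cell x))) ≤ 6 := by
  have hF := cell_mem hx
  have hx1 : (x.1 : ℝ) = 2 * (cell x).1 ∨ (x.1 : ℝ) = 2 * (cell x).1 + 1 := by
    have : x.1 = 2 * (x.1 / 2) ∨ x.1 = 2 * (x.1 / 2) + 1 := by omega
    rcases this with h | h
    · left; exact_mod_cast h
    · right; exact_mod_cast h
  have hx2 : (x.2 : ℝ) = 2 * (cell x).2 ∨ (x.2 : ℝ) = 2 * (cell x).2 + 1 := by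
    have : x.2 = 2 * (x.2 / 2) ∨ x.2 = 2 * (x.2 / 2) + 1 := by omega
    rcases this with h | h
    · left; exact_mod_cast h
    · right; exact_mod_cast h
  have hseg : ∀ s ∈ Icc (0 : ℝ) 1,
      ball (BD.cf x + s * (2 * cc (cell x) - BD.cf x)) (1 / 2) ⊆ BD.UU T := by
    intro s hs w hw
    obtain ⟨s0, s1⟩ := hs
    obtain ⟨h3, h4⟩ := ball_coord hw
    rw [cf_eq] at h3 h4
    have e1 : (cc x + s * (2 * cc (cell x) - cc x)).re =
        x.1 + 1 / 2 + s * (2 * (cell x).1 + 1 - (x.1 + 1 / 2)) := by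
      simp [cc]; left; ring
    have e2 : (cc x + s * (2 * cc (cell x) - cc x)).im =
        x.2 + 1 / 2 + s * (2 * (cell x).2 + 1 - (x.2 + 1 / 2)) := by
      simp [cc]; left; ring
    rw [e1, abs_lt] at h3
    rw [e2, abs_lt] at h4
    rw [BD_UU_eq]
    unfold UU
    rw [mem_interior_region_iff two_pos]
    intro g hg
    have g0 : g = cell x := by
      refine eq_of_open (a := 0) two_pos ?_ ?_ ?_ ?_ hg
      · simp only [gx, Complex.zero_re, sub_zero]
        rw [lt_div_iff₀ two_pos]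
        rcases hx1 with h5 | h5 <;> nlinarith
      · simp only [gx, Complex.zero_re, sub_zero]
        rw [div_lt_iff₀ two_pos]
        rcases hx1 with h5 | h5 <;> nlinarith
      · simp only [gy, Complex.zero_im, sub_zero]
        rw [lt_div_iff₀ two_pos]
        rcases hx2 with h5 | h5 <;> nlinarith
      · simp only [gy, Complex.zero_im, sub_zero]
        rw [div_lt_iff₀ two_pos]
        rcases hx2 with h5 | h5 <;> nlinarith
    rw [g0]; exact hF
  have hn : ‖2 * cc (cell x) - BD.cf x‖ ≤ 1 := by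
    rw [cf_eq]
    have h1 := Complex.norm_le_abs_re_add_abs_im (2 * cc (cell x) - cc x)
    have e1 : (2 * cc (cell x) - cc x).re = 2 * (cell x).1 + 1 - (x.1 + 1 / 2) := by
      simp [cc]; ring
    have e2 : (2 * cc (cell x) - cc x).im = 2 * (cell x).2 + 1 - (x.2 + 1 / 2) := by
      simp [cc]; ring
    rw [e1, e2] at h1
    have h2 : |2 * ((cell x).1 : ℝ) + 1 - (x.1 + 1 / 2)| ≤ 1 / 2 := by
      rw [abs_le]; rcases hx1 with h5 | h5 <;> constructor <;> linarith
    have h3 : |2 * ((cell x).2 : ℝ) + 1 - (x.2 + 1 / 2)| ≤ 1 / 2 := by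
      rw [abs_le]; rcases hx2 with h5 | h5 <;> constructor <;> linarith
    linarith
  have := hyp_le_of_seg h.hφ (fun z hz => h.lt hz) (by norm_num : (0 : ℝ) < 1 / 2) hseg
  linarith

theorem cc_mem_BD {T : Temp} {F : Pt} (hF : F ∈ T.cells) : 2 * cc F ∈ BD.UU T := by
  have h1 : 2 * cc F = ctr 2 0 F := by
    apply Complex.ext <;> simp [ctr, pt, cc]
  rw [h1, BD_UU_eq]
  exact ctr_mem two_pos hF

/-- **comparison**: `hyp` of fine faces is at most `18 kc + 12` -/
theorem hyp_fine_le {T : Temp} {f φ : ℂ → ℂ} (h : BD.RM T f φ) {x y : Pt} (hx : x ∈ T.faceSet)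
    (hy : y ∈ T.faceSet) :
    hyp (φ (BD.cf x)) (φ (BD.cf y)) ≤ 18 * kc T (cell x) (cell y) + 12 := by
  have h1 := hyp_cell_fine h hx
  have h2 := hyp_cell_fine h hy
  have h3 := hyp_le_kc (isRM_of h) (cell_mem hx) (cell_mem hy)
  have a1 := h.lt (cf_mem hx)
  have a2 := h.lt (cf_mem hy)
  have a3 := h.lt (cc_mem_BD (cell_mem hx))
  have a4 := h.lt (cc_mem_BD (cell_mem hy))
  have t1 := hyp_triangle a1 a3 a2
  have t2 := hyp_triangle a3 a4 a2
  have t3 := hyp_comm (φ (BD.cf y)) (φ (2 * cc (cell y)))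
  linarith

/-- **`dd ≤ 18 kc + 14`** -/
theorem dd_le_kc {T : Temp} {x y : Pt} (hx : x ∈ T.faceSet) (hy : y ∈ T.faceSet) :
    BD.dd T x y ≤ 18 * kc T (cell x) (cell y) + 14 := by
  obtain ⟨f, h⟩ := rmap_spec T
  have h1 := hyp_fine_le h hx hy
  have a1 := h.lt (cf_mem hx)
  have a2 := h.lt (cf_mem hy)
  have h2 := log_HH_le a1 a2
  have h3 := BD.one_le_HH a1 a2
  unfold BD.dd
  rw [Real.log_mul (by norm_num) (by positivity)]
  have h4 : Real.log 4 ≤ 2 := by
    have := Real.log_two_lt_d9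
    have e : (4 : ℝ) = 2 ^ 2 := by norm_num
    rw [e, Real.log_pow]
    push_cast
    linarith
  linarith

/-- `hyp ≤ dd ≤ hyp + log 4` -/
theorem dd_hyp {T : Temp} {x y : Pt} (hx : x ∈ T.faceSet) (hy : y ∈ T.faceSet) :
    hyp (BD.rmap T (BD.cf x)) (BD.rmap T (BD.cf y)) ≤ BD.dd T x y ∧
      BD.dd T x y ≤ hyp (BD.rmap T (BD.cf x)) (BD.rmap T (BD.cf y)) + Real.log 4 := by
  obtain ⟨f, h⟩ := rmap_spec T
  have a1 := h.lt (cf_mem hx)
  have a2 := h.lt (cf_mem hy)
  refine ⟨hyp_le_log_HH a1 a2, ?_⟩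
  have h3 := BD.one_le_HH a1 a2
  unfold BD.dd
  rw [Real.log_mul (by norm_num) (by positivity)]
  have := log_HH_le a1 a2
  linarith

end Vale.Agent.P155.T211B
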