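import Vale.Agent.P142.KoebeBound

/-!
# P155, BD block: Koebe's theorem with the constant 1/10

(copied from `P164/Bdl/B4.lean`)
-/

open Set Metric Filter Topology
open Vale.Agent

namespace Vale.Agent.P155.T211B

/-- A cheap Koebe theorem: an omitted value of a normalised univalent function is at distance at
least `1/10` of the origin. -/
theorem koebe_omitted {F : ℂ → ℂ} (hF : DifferentiableOn ℂ F (ball 0 1))
    (hinj : InjOn F (ball 0 1)) (h0 : F 0 = 0) (h1 : deriv F 0 = 1) {a : ℂ}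
    (ha : ∀ ζ ∈ ball (0 : ℂ) 1, F ζ ≠ a) : 1 / 10 ≤ ‖a‖ := by
  have hm0 : (0 : ℂ) ∈ ball (0 : ℂ) 1 := mem_ball_self one_pos
  have ha0 : a ≠ 0 := fun h => ha 0 hm0 (by rw [h0, h])
  set G : ℂ → ℂ := fun ζ => a * F ζ / (a - F ζ) with hG
  have hden : ∀ ζ ∈ ball (0 : ℂ) 1, a - F ζ ≠ 0 := fun ζ hζ => sub_ne_zero.2 (ha ζ hζ).symm
  have hGd : DifferentiableOn ℂ G (ball 0 1) :=
    (hF.const_mul a).div ((differentiableOn_const a).sub hF) hden
  have hGi : InjOn G (ball 0 1) := by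
    intro x hx y hy hxy
    apply hinj hx hy
    have e := hxy
    simp only [hG] at e
    rw [div_eq_div_iff (hden x hx) (hden y hy)] at e
    have : a * a * (F x - F y) = 0 := by linear_combination e
    rcases mul_eq_zero.1 this with h | h
    · exact absurd (mul_self_eq_zero.1 h) ha0
    · exact sub_eq_zero.1 h
  have hG0 : G 0 = 0 := by simp only [hG, h0, mul_zero, sub_zero, zero_div]
  have hFat : DifferentiableAt ℂ F 0 := (hF 0 hm0).differentiableAt (isOpen_ball.mem_nhds hm0)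
  have hFd : HasDerivAt F 1 0 := h1 ▸ hFat.hasDerivAt
  have hG1 : deriv G 0 = 1 := by
    have h2 : HasDerivAt G ((a * 1 * (a - F 0) - a * F 0 * -1) / (a - F 0) ^ 2) 0 :=
      (hFd.const_mul a).div (hFd.const_sub a) (hden 0 hm0)
    rw [h2.deriv, h0]
    field_simp
    ring
  have hb1 := P142.norm_tc_one_le hF hinj h0 h1
  have hb2 := P142.norm_tc_one_le hGd hGi hG0 hG1
  have htc : ∀ V : ℂ → ℂ, P142.tc V 1 = deriv V 0 := fun V => by
    simp only [P142.tc, Nat.factorial_one, Nat.cast_one, inv_one, iteratedDeriv_one, one_mul]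
  have hRel : P142.Rfun G =ᶠ[𝓝 0] fun ζ => P142.Rfun F ζ - ζ / a := by
    have hmem : ball (0 : ℂ) 1 ∈ 𝓝 (0 : ℂ) := isOpen_ball.mem_nhds hm0
    filter_upwards [hmem] with ζ hζ
    rcases eq_or_ne ζ 0 with rfl | hne
    · simp only [P142.Rfun, dslope_same, hG1, inv_one, h1, zero_div, sub_zero]
    · have hFne : F ζ ≠ 0 := fun h => hne (hinj hζ hm0 (by rw [h, h0]))
      simp only [P142.Rfun]
      rw [dslope_of_ne _ hne, dslope_of_ne _ hne, slope_def_field, slope_def_field, hG0, h0]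
      simp only [hG, sub_zero]
      have := hden ζ hζ
      field_simp
  have hRFd : DifferentiableAt ℂ (P142.Rfun F) 0 :=
    (P142.Rfun_diff hF hinj h0 h1 0 hm0).differentiableAt (isOpen_ball.mem_nhds hm0)
  have hd : deriv (P142.Rfun G) 0 = deriv (P142.Rfun F) 0 - 1 / a := by
    rw [hRel.deriv_eq]
    have h3 : HasDerivAt (fun ζ : ℂ => P142.Rfun F ζ - ζ / a) (deriv (P142.Rfun F) 0 - 1 / a) 0 :=
      hRFd.hasDerivAt.sub ((hasDerivAt_id (0 : ℂ)).div_const a)
    exact h3.deriv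
  rw [htc] at hb1 hb2
  have h4 : ‖1 / a‖ ≤ 29 / 3 := by
    have e : 1 / a = deriv (P142.Rfun F) 0 - deriv (P142.Rfun G) 0 := by rw [hd]; ring
    rw [e]
    refine (norm_sub_le _ _).trans ?_
    linarith only [hb1, hb2]
  rw [norm_div, norm_one] at h4
  have hapos : 0 < ‖a‖ := norm_pos_iff.2 ha0
  rw [div_le_iff₀ hapos] at h4
  linarith only [h4, hapos]

/-- Koebe theorem, image form (constant `1/10`). -/
theorem koebe_image {F : ℂ → ℂ} {c : ℂ} {ρ : ℝ} (hρ : 0 < ρ)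
    (hF : DifferentiableOn ℂ F (ball c ρ)) (hinj : InjOn F (ball c ρ)) :
    ball (F c) (ρ * ‖deriv F c‖ / 10) ⊆ F '' ball c ρ := by
  intro w hw
  rw [mem_ball, dist_eq_norm] at hw
  have hρc : (ρ : ℂ) ≠ 0 := by exact_mod_cast hρ.ne'
  have hd0 : deriv F c ≠ 0 := by
    intro h0
    rw [h0, norm_zero, mul_zero, zero_div] at hw
    exact absurd hw (not_lt.2 (norm_nonneg _))
  have hdpos : 0 < ‖deriv F c‖ := norm_pos_iff.2 hd0
  by_contra hcon
  have hden : (ρ : ℂ) * deriv F c ≠ 0 := mul_ne_zero hρc hd0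
  have hmap : ∀ ζ ∈ ball (0 : ℂ) 1, c + (ρ : ℂ) * ζ ∈ ball c ρ := by
    intro ζ hζ
    rw [mem_ball_zero_iff] at hζ
    rw [mem_ball, dist_eq_norm, add_sub_cancel_left, norm_mul, Complex.norm_real,
      Real.norm_eq_abs, abs_of_pos hρ]
    nlinarith only [hρ, hζ]
  have hlin : ∀ ζ : ℂ, HasDerivAt (fun ζ : ℂ => c + (ρ : ℂ) * ζ) (ρ : ℂ) ζ := by
    intro ζ
    simpa using ((hasDerivAt_id ζ).const_mul (ρ : ℂ)).const_add c
  have hFat : ∀ ζ ∈ ball (0 : ℂ) 1, HasDerivAt (fun ζ : ℂ => F (c + (ρ : ℂ) * ζ))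
      (deriv F (c + (ρ : ℂ) * ζ) * (ρ : ℂ)) ζ := by
    intro ζ hζ
    have h1 := ((hF _ (hmap ζ hζ)).differentiableAt (isOpen_ball.mem_nhds (hmap ζ hζ))).hasDerivAt
    exact h1.comp ζ (hlin ζ)
  have hG : ∀ ζ ∈ ball (0 : ℂ) 1,
      HasDerivAt (fun ζ : ℂ => (F (c + (ρ : ℂ) * ζ) - F c) / ((ρ : ℂ) * deriv F c))
        (deriv F (c + (ρ : ℂ) * ζ) * (ρ : ℂ) / ((ρ : ℂ) * deriv F c)) ζ := by
    intro ζ hζ
    exact ((hFat ζ hζ).sub_const (F c)).div_const _
  have h0m : (0 : ℂ) ∈ ball (0 : ℂ) 1 := mem_ball_self one_pos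
  have hkey := koebe_omitted
    (F := fun ζ : ℂ => (F (c + (ρ : ℂ) * ζ) - F c) / ((ρ : ℂ) * deriv F c))
    (a := (w - F c) / ((ρ : ℂ) * deriv F c))
    (fun ζ hζ => (hG ζ hζ).differentiableAt.differentiableWithinAt)
    (by
      intro x hx y hy hxy
      have h1 : F (c + (ρ : ℂ) * x) = F (c + (ρ : ℂ) * y) := by
        have h2 := (div_left_inj' hden).1 hxy
        exact sub_left_inj.1 h2
      have h3 := hinj (hmap x hx) (hmap y hy) h1
      exact mul_left_cancel₀ hρc (add_left_cancel h3))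
    (by simp)
    (by
      rw [(hG 0 h0m).deriv, mul_zero, add_zero, mul_comm (deriv F c)]
      exact div_self hden)
    (by
      intro ζ hζ h1
      have h2 := (div_left_inj' hden).1 h1
      exact hcon ⟨_, hmap ζ hζ, sub_left_inj.1 h2⟩)
  rw [norm_div, norm_mul, Complex.norm_real, Real.norm_eq_abs, abs_of_pos hρ,
    le_div_iff₀ (by (clear * - hρ hd0; positivity))] at hkey
  linarith only [hw, hkey]

end Vale.Agent.P155.T211B
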