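import Vale.Agent.P155.T211B.Geo
import Vale.Agent.P155.T211B.Koebe

/-!
# P155, BD block: inverses of conformal maps; the comparison in terms of the map `F : disc → U`
-/

open Set Metric Function

namespace Vale.Agent.P155.T211B

open Vale.Agent.P155

/-- the inverse of an injective holomorphic map is holomorphic -/
theorem exists_inv {V W : Set ℂ} (hV : IsOpen V) {g : ℂ → ℂ} (h1 : DifferentiableOn ℂ g V)
    (h2 : InjOn g V) (h3 : g '' V = W) :
    ∃ f : ℂ → ℂ, DifferentiableOn ℂ f W ∧ (∀ w ∈ W, f w ∈ V) ∧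
      (∀ w ∈ W, g (f w) = w) ∧ ∀ z ∈ V, f (g z) = z := by
  have h4 : ∀ z ∈ V, deriv g z ≠ 0 := fun z hz =>
    Vale.Agent.P142.injOn_deriv_ne_zero hV h1 h2 hz
  have hsd : ∀ z ∈ V, HasStrictDerivAt g (deriv g z) z := fun z hz =>
    (h1.analyticOnNhd hV z hz).hasStrictDerivAt
  set f : ℂ → ℂ := invFunOn g V with hf
  have hfU : ∀ w ∈ W, f w ∈ V ∧ g (f w) = w := by
    intro w hw
    rw [← h3] at hw
    exact ⟨invFunOn_mem hw, invFunOn_eq hw⟩
  have hWo : IsOpen W := by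
    rw [← h3, isOpen_iff_mem_nhds]
    rintro _ ⟨z, hz, rfl⟩
    rw [← (hsd z hz).map_nhds_eq (h4 z hz)]
    exact Filter.image_mem_map (hV.mem_nhds hz)
  have hcont : ∀ w ∈ W, ContinuousAt f w := by
    intro w hw
    obtain ⟨hz, hgz⟩ := hfU w hw
    rw [ContinuousAt, Filter.tendsto_def]
    intro s hs
    have h6 : g '' (s ∩ V) ∈ nhds (g (f w)) := by
      rw [← (hsd _ hz).map_nhds_eq (h4 _ hz)]
      exact Filter.image_mem_map (Filter.inter_mem hs (hV.mem_nhds hz))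
    rw [hgz] at h6
    filter_upwards [h6] with y hy
    obtain ⟨x, ⟨hxs, hxU⟩, rfl⟩ := hy
    have hy' : g x ∈ W := by rw [← h3]; exact mem_image_of_mem _ hxU
    have := h2 (hfU _ hy').1 hxU (hfU _ hy').2
    show f (g x) ∈ s
    rw [this]; exact hxs
  have hder : ∀ w ∈ W, HasStrictDerivAt f (deriv g (f w))⁻¹ w := by
    intro w hw
    obtain ⟨hz, hgz⟩ := hfU w hw
    refine HasStrictDerivAt.of_local_left_inverse (hcont w hw) (hsd _ hz) (h4 _ hz) ?_
    filter_upwards [hWo.mem_nhds hw] with y hy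
    exact (hfU y hy).2
  refine ⟨f, fun w hw => (hder w hw).hasDerivAt.differentiableAt.differentiableWithinAt,
    fun w hw => (hfU w hw).1, fun w hw => (hfU w hw).2, fun z hz => ?_⟩
  have hy' : g z ∈ W := by rw [← h3]; exact mem_image_of_mem _ hz
  exact h2 (hfU _ hy').1 hz (hfU _ hy').2

/-- **comparison in terms of `F : disc → U T`** -/
theorem inv_del_le {T : Temp} {F : ℂ → ℂ} (hF : DifferentiableOn ℂ F (ball 0 1))
    (hinj : InjOn F (ball 0 1)) (himg : F '' ball 0 1 = U T) {a b : ℂ} (ha : a ∈ ball (0 : ℂ) 1)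
    (hb : b ∈ ball (0 : ℂ) 1) {u u' : Pt} (hu : u ∈ T.cells) (hu' : u' ∈ T.cells)
    (hFa : F a = cc u) (hFb : F b = cc u') :
    ‖1 - (starRingEnd ℂ) a * b‖ ^ 2 / ((1 - ‖a‖ ^ 2) * (1 - ‖b‖ ^ 2)) ≤
      Real.exp (18 * kc T u u') := by
  obtain ⟨φ, h1, h2, h3, h4⟩ := exists_inv isOpen_ball hF hinj himg
  have hRM : IsRM T φ := by
    refine ⟨h1, ?_, ?_⟩
    · intro z hz w hw hzw
      rw [← h3 z hz, ← h3 w hw, hzw]
    · apply Subset.antisymm
      · rintro _ ⟨z, hz, rfl⟩; exact h2 z hz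
      · intro w hw
        exact ⟨F w, by rw [← himg]; exact mem_image_of_mem _ hw, h4 w hw⟩
  have h5 := hyp_le_kc hRM hu hu'
  rw [← hFa, ← hFb, h4 a ha, h4 b hb] at h5
  rw [mem_ball_zero_iff] at ha hb
  have h6 := exp_neg_hyp_le hb ha
  rw [hyp_comm] at h6
  have h7 := del_pos hb ha
  have e : ‖1 - (starRingEnd ℂ) a * b‖ ^ 2 / ((1 - ‖a‖ ^ 2) * (1 - ‖b‖ ^ 2)) = 1 / del b a := by
    unfold del
    rw [one_div_div, mul_comm (1 - ‖b‖ ^ 2)]
  rw [e, one_div]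
  have h8 : (del b a)⁻¹ ≤ (Real.exp (-hyp a b))⁻¹ := inv_anti₀ (Real.exp_pos _) h6
  rw [← Real.exp_neg, neg_neg] at h8
  exact h8.trans (Real.exp_le_exp.2 h5)

end Vale.Agent.P155.T211B
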