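import Vale.Agent.P155.T211B.Fine
import Vale.Agent.P155.T211B.Inv

/-!
# P155, BD block: growth of conformal maps (`KO`, `HGT`, `KOG`)
-/

open Set Metric Function
open scoped ComplexConjugate

namespace Vale.Agent.P155.T211B

open Vale.Agent.P155

/-! ### Gronwall -/

/-- growth along a curve whose speed is at most `K` times the distance to the complement -/
theorem curve_growth {V : Set ℂ} {γ γ' : ℝ → ℂ} {K N : ℝ} (hK : 0 < K)
    (hd : ∀ t, 0 ≤ t → t ≤ N → HasDerivAt γ (γ' t) t)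
    (hs : ∀ t, 0 ≤ t → t ≤ N → ‖γ' t‖ ≤ K * infDist (γ t) V) {t : ℝ} (ht0 : 0 ≤ t) (ht : t ≤ N) :
    ‖γ t - γ 0‖ ≤ infDist (γ 0) V * (Real.exp (K * t) - 1) := by
  have h := norm_le_gronwallBound_of_norm_deriv_right_le (f := fun s => γ s - γ 0) (f' := γ')
    (δ := 0) (K := K) (ε := K * infDist (γ 0) V) (a := 0) (b := t)
    (fun s hs' => ((hd s hs'.1 (hs'.2.trans ht)).sub_const (γ 0)).continuousAt.continuousWithinAt)
    (fun s hs' => ((hd s hs'.1 (hs'.2.le.trans ht)).sub_const _).hasDerivWithinAt)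
    (by simp) (fun s hs' => by
      have h1 := hs s hs'.1 (hs'.2.le.trans ht)
      have h2 : infDist (γ s) V ≤ infDist (γ 0) V + dist (γ s) (γ 0) :=
        infDist_le_infDist_add_dist
      rw [dist_eq_norm] at h2
      nlinarith) t ⟨ht0, le_rfl⟩
  rw [gronwallBound_of_K_ne_0 hK.ne'] at h
  simp only [zero_mul, zero_add, sub_zero] at h
  rwa [mul_div_cancel_left₀ _ hK.ne'] at h

/-- backwards -/
theorem curve_growth' {V : Set ℂ} {γ γ' : ℝ → ℂ} {K N : ℝ} (hK : 0 < K)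
    (hd : ∀ t, 0 ≤ t → t ≤ N → HasDerivAt γ (γ' t) t)
    (hs : ∀ t, 0 ≤ t → t ≤ N → ‖γ' t‖ ≤ K * infDist (γ t) V) {t : ℝ} (ht0 : 0 ≤ t) (ht : t ≤ N) :
    ‖γ 0 - γ t‖ ≤ infDist (γ t) V * (Real.exp (K * t) - 1) := by
  have := curve_growth (γ := fun s => γ (t - s)) (γ' := fun s => -γ' (t - s)) (N := t) (V := V) hK
    (fun s h0 h1 => by
      have h2 := hd (t - s) (by linarith) (by linarith)
      have h3 : HasDerivAt (fun s => t - s) (-1) s := (hasDerivAt_id s).const_sub t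
      exact (HasDerivAt.scomp s h2 h3).congr_deriv (by simp))
    (fun s h0 h1 => by rw [norm_neg]; exact hs _ (by linarith) (by linarith)) ht0 le_rfl
  simpa using this

/-! ### the speed of a conformal map -/

theorem speed {V : Set ℂ} (hVc : Vᶜ.Nonempty) {F : ℂ → ℂ} (hF : DifferentiableOn ℂ F (ball 0 1))
    (hinj : InjOn F (ball 0 1)) (hm : ∀ w ∈ ball (0 : ℂ) 1, F w ∈ V) {z : ℂ} (hz : ‖z‖ < 1) :
    (1 - ‖z‖) * ‖deriv F z‖ ≤ 10 * infDist (F z) Vᶜ := by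
  have hr : 0 < 1 - ‖z‖ := by linarith
  have hsub : ball z (1 - ‖z‖) ⊆ ball (0 : ℂ) 1 := by
    refine ball_subset_ball' ?_
    rw [dist_zero_right]; linarith
  have h1 := koebe_image hr (hF.mono hsub) (hinj.mono hsub)
  have h2 : (1 - ‖z‖) * ‖deriv F z‖ / 10 ≤ infDist (F z) Vᶜ := by
    refine (le_infDist hVc).2 fun y hy => ?_
    by_contra hcon
    push Not at hcon
    obtain ⟨x, hx, hxy⟩ := h1 (show y ∈ ball (F z) _ by rwa [mem_ball, dist_comm])
    exact hy (hxy ▸ hm x (hsub hx))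
  linarith

/-- the Moebius map with `0 ↦ w` -/
noncomputable def mb (w ζ : ℂ) : ℂ := (ζ + w) / (1 + conj w * ζ)

theorem mb_den {w ζ : ℂ} (hw : ‖w‖ < 1) (hζ : ‖ζ‖ < 1) : 1 + conj w * ζ ≠ 0 := by
  intro h
  have h1 : ‖conj w * ζ‖ = 1 := by
    have : conj w * ζ = -1 := by linear_combination h
    rw [this, norm_neg, norm_one]
  rw [norm_mul, Complex.norm_conj] at h1
  nlinarith [norm_nonneg w, norm_nonneg ζ]

theorem mb_lt {w ζ : ℂ} (hw : ‖w‖ < 1) (hζ : ‖ζ‖ < 1) : ‖mb w ζ‖ < 1 := by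
  have hw' : ‖-w‖ < 1 := by rwa [norm_neg]
  have := mob_lt hζ hw'
  have e : (ζ - -w) / (1 - conj (-w) * ζ) = mb w ζ := by
    unfold mb
    rw [map_neg, sub_neg_eq_add, neg_mul, sub_neg_eq_add]
  rwa [e] at this

theorem mb_zero (w : ℂ) : mb w 0 = w := by simp [mb]

theorem mb_diff {w : ℂ} (hw : ‖w‖ < 1) : DifferentiableOn ℂ (mb w) (ball 0 1) := by
  intro ζ hζ
  rw [mem_ball_zero_iff] at hζ
  have h := mb_den hw hζ
  unfold mb
  exact (((differentiableAt_id.add_const w).div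
    ((differentiableAt_id.const_mul (conj w)).const_add 1) h)).differentiableWithinAt

theorem mb_inj {w : ℂ} (hw : ‖w‖ < 1) : InjOn (mb w) (ball 0 1) := by
  intro x hx y hy hxy
  rw [mem_ball_zero_iff] at hx hy
  have h1 := mb_den hw hx
  have h2 := mb_den hw hy
  unfold mb at hxy
  rw [div_eq_div_iff h1 h2] at hxy
  have h3 : (x - y) * (1 - conj w * w) = 0 := by linear_combination hxy
  rcases mul_eq_zero.1 h3 with h | h
  · exact sub_eq_zero.1 h
  · exfalso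
    have h4 : conj w * w = 1 := by linear_combination -h
    have h5 : ‖conj w * w‖ = 1 := by rw [h4, norm_one]
    rw [norm_mul, Complex.norm_conj] at h5
    nlinarith [norm_nonneg w]

/-- the preimage of `w'` -/
theorem mb_pre {w w' : ℂ} (hw : ‖w‖ < 1) (hw' : ‖w'‖ < 1) :
    mb w ((w' - w) / (1 - conj w * w')) = w' := by
  have h1 : 1 - conj w * w' ≠ 0 := by
    intro h
    have := mob_den_pos hw' hw
    rw [h, norm_zero] at this
    norm_num at this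
  have hζ := mob_lt hw' hw
  have h2 := mb_den hw hζ
  have e : (w' - w) / (1 - conj w * w') * (1 - conj w * w') = w' - w := div_mul_cancel₀ _ h1
  unfold mb
  rw [div_eq_iff h2]
  apply mul_right_cancel₀ h1
  linear_combination (1 - w' * conj w) * e

/-- **growth**: `‖f w' - f w‖ ≤ (4 HH)^10 dist (f w, ∂V)` -/
theorem growth {V : Set ℂ} (hVc : Vᶜ.Nonempty) {f : ℂ → ℂ} (hf : DifferentiableOn ℂ f (ball 0 1))
    (hinj : InjOn f (ball 0 1)) (hm : ∀ w ∈ ball (0 : ℂ) 1, f w ∈ V) {w w' : ℂ}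
    (hw : ‖w‖ < 1) (hw' : ‖w'‖ < 1) :
    ‖f w' - f w‖ ≤ (4 * BD.HH w w') ^ 10 * infDist (f w) Vᶜ ∧
      infDist (f w') Vᶜ ≤ (4 * BD.HH w w') ^ 10 * infDist (f w) Vᶜ := by
  set ζ := (w' - w) / (1 - conj w * w') with hζ
  have hζ1 : ‖ζ‖ < 1 := mob_lt hw' hw
  have hζ2 : ‖ζ‖ ^ 2 = 1 - del w' w := mob_norm_sq hw' hw
  obtain ⟨N, hN0, hN⟩ := exists_th (norm_nonneg ζ) hζ1
  -- the direction
  obtain ⟨u, hu, hζu⟩ : ∃ u : ℂ, ‖u‖ = 1 ∧ ζ = u * (th N : ℂ) := by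
    rcases eq_or_ne ζ 0 with h0 | h0
    · refine ⟨1, norm_one, ?_⟩
      rw [hN, h0]; simp
    · have hn : (‖ζ‖ : ℂ) ≠ 0 := by
        have := norm_pos_iff.2 h0
        exact_mod_cast this.ne'
      refine ⟨ζ / ‖ζ‖, ?_, ?_⟩
      · rw [norm_div, Complex.norm_real, norm_norm, div_self (norm_pos_iff.2 h0).ne']
      · rw [hN]; field_simp
  set F : ℂ → ℂ := fun z => f (mb w z) with hF
  have hmaps : ∀ z ∈ ball (0 : ℂ) 1, mb w z ∈ ball (0 : ℂ) 1 := by
    intro z hz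
    rw [mem_ball_zero_iff] at hz ⊢
    exact mb_lt hw hz
  have hFd : DifferentiableOn ℂ F (ball 0 1) := hf.comp (mb_diff hw) hmaps
  have hFi : InjOn F (ball 0 1) := hinj.comp (mb_inj hw) hmaps
  have hFm : ∀ z ∈ ball (0 : ℂ) 1, F z ∈ V := fun z hz => hm _ (hmaps z hz)
  have hball : ∀ t, ‖u * (th t : ℂ)‖ < 1 := by
    intro t
    rw [norm_mul, hu, one_mul]; exact norm_th_lt t
  set γ : ℝ → ℂ := fun t => F (u * (th t : ℂ)) with hγ
  set γ' : ℝ → ℂ := fun t => deriv F (u * (th t : ℂ)) * (u * (((1 - th t ^ 2) / 2 : ℝ) : ℂ)) with hγ'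
  have hd : ∀ t, HasDerivAt γ (γ' t) t := by
    intro t
    have h1 : HasDerivAt F (deriv F (u * (th t : ℂ))) (u * (th t : ℂ)) :=
      (hFd.differentiableAt (isOpen_ball.mem_nhds (by rw [mem_ball_zero_iff]; exact hball t))).hasDerivAt
    have h2 : HasDerivAt (fun t : ℝ => (u * (th t : ℂ))) (u * (((1 - th t ^ 2) / 2 : ℝ) : ℂ)) t :=
      ((hasDerivAt_th t).ofReal_comp).const_mul u
    exact HasDerivAt.comp (h₂ := F) t h1 h2
  have hs : ∀ t, ‖γ' t‖ ≤ 10 * infDist (γ t) Vᶜ := by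
    intro t
    have h1 := speed hVc hFd hFi hFm (hball t)
    have h2 : ‖u * (th t : ℂ)‖ = |th t| := by
      rw [norm_mul, hu, one_mul, Complex.norm_real, Real.norm_eq_abs]
    rw [h2] at h1
    have h3 : ‖γ' t‖ = ‖deriv F (u * (th t : ℂ))‖ * ((1 - th t ^ 2) / 2) := by
      simp only [hγ']
      rw [norm_mul, norm_mul, hu, one_mul, Complex.norm_real, Real.norm_of_nonneg]
      rw [one_sub_th]
      have := Real.cosh_pos (t / 2)
      positivity
    have h4 : (1 - th t ^ 2) / 2 ≤ 1 - |th t| := by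
      have := abs_th_lt t
      have h5 := abs_nonneg (th t)
      have h6 : th t ^ 2 = |th t| ^ 2 := (sq_abs _).symm
      rw [h6]
      nlinarith
    rw [h3]
    calc ‖deriv F (u * (th t : ℂ))‖ * ((1 - th t ^ 2) / 2)
        ≤ ‖deriv F (u * (th t : ℂ))‖ * (1 - |th t|) := by gcongr
      _ = (1 - |th t|) * ‖deriv F (u * (th t : ℂ))‖ := mul_comm _ _
      _ ≤ _ := h1
  have e0 : γ 0 = f w := by
    simp only [hγ, hF, th_zero]
    simp [mb_zero]
  have e1 : γ N = f w' := by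
    simp only [hγ, hF]
    rw [← hζu, hζ, mb_pre hw hw']
  have hg := curve_growth (V := Vᶜ) (by norm_num : (0 : ℝ) < 10) (fun t _ _ => hd t)
    (fun t _ _ => hs t) hN0 (le_refl N)
  rw [e0, e1] at hg
  -- the exponential
  have hexp : Real.exp N ≤ 4 * BD.HH w w' := by
    have h1 := one_sub_th N
    rw [hN, hζ2, sub_sub_cancel] at h1
    have h2 : Real.cosh (N / 2) ^ 2 = BD.HH w w' := by
      rw [BD.HH_comm, del_eq_HH, h1, one_div_one_div]
    rw [← h2]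
    have h3 : Real.exp (N / 2) / 2 ≤ Real.cosh (N / 2) := by
      rw [Real.cosh_eq]
      have := Real.exp_pos (-(N / 2))
      linarith
    calc Real.exp N = 4 * (Real.exp (N / 2) / 2) ^ 2 := by
          rw [div_pow, ← Real.exp_nat_mul]
          have : ((2 : ℕ) : ℝ) * (N / 2) = N := by push_cast; ring
          rw [this]
          ring
      _ ≤ _ := by
          have := pow_le_pow_left₀ (by positivity) h3 2
          linarith
  have hexp10 : Real.exp (10 * N) ≤ (4 * BD.HH w w') ^ 10 := by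
    have : Real.exp (10 * N) = Real.exp N ^ 10 := by
      rw [← Real.exp_nat_mul]; norm_num
    rw [this]
    exact pow_le_pow_left₀ (Real.exp_pos _).le hexp 10
  have hi : 0 ≤ infDist (f w) Vᶜ := infDist_nonneg
  constructor
  · refine hg.trans ?_
    nlinarith
  · have h2 : infDist (f w') Vᶜ ≤ infDist (f w) Vᶜ + dist (f w') (f w) :=
      infDist_le_infDist_add_dist
    rw [dist_eq_norm] at h2
    nlinarith

theorem RM_inj {T : Temp} {f φ : ℂ → ℂ} (h : BD.RM T f φ) : InjOn f (ball 0 1) := by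
  intro x hx y hy hxy
  rw [← h.left x hx, ← h.left y hy, hxy]

theorem BD_compl_ne (T : Temp) : (BD.UU T)ᶜ.Nonempty := by
  rw [BD_UU_eq, nonempty_compl]; exact UU_ne_univ two_pos 0 T

/-- **[KOG]** growth, with explicit constants -/
theorem kog {T : Temp} {f φ : ℂ → ℂ} (h : BD.RM T f φ) {w w' : ℂ} (hw : w ∈ ball (0 : ℂ) 1)
    (hw' : w' ∈ ball (0 : ℂ) 1) :
    ‖f w - f w'‖ ≤ (4 * BD.HH w w') ^ 10 * BD.dU T (f w) ∧
      BD.dU T (f w') ≤ (4 * BD.HH w w') ^ 10 * BD.dU T (f w) := by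
  rw [mem_ball_zero_iff] at hw hw'
  have := growth (BD_compl_ne T) h.hf (RM_inj h) h.maps hw hw'
  rw [norm_sub_rev]
  exact this

/-- **[HGT]** with the exponent `10` -/
def HGT10 : Prop := ∃ c : ℝ, 0 < c ∧ ∀ T f φ, BD.RM T f φ → ∀ w ∈ ball (0 : ℂ) 1,
  c * (1 - ‖w‖) ^ 10 * BD.dU T (f 0) ≤ BD.dU T (f w)

theorem hgt10 : HGT10 := by
  refine ⟨1 / 4 ^ 10, by norm_num, fun T f φ h w hw => ?_⟩
  have h0 : (0 : ℂ) ∈ ball (0 : ℂ) 1 := mem_ball_self one_pos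
  have h1 := (kog h hw h0).2
  have hi : 0 ≤ BD.dU T (f w) := infDist_nonneg
  rw [mem_ball_zero_iff] at hw
  have h2 : BD.HH w 0 = 1 / (1 - ‖w‖ ^ 2) := by
    unfold BD.HH; simp
  have h3 : 0 < 1 - ‖w‖ := by linarith
  have h4 : 1 - ‖w‖ ≤ 1 - ‖w‖ ^ 2 := by nlinarith [norm_nonneg w]
  have h5 : (1 - ‖w‖) * (4 * BD.HH w 0) ≤ 4 := by
    rw [h2]
    have h6 : 0 < 1 - ‖w‖ ^ 2 := by linarith
    rw [mul_one_div, mul_div_assoc', div_le_iff₀ h6]
    linarith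
  have h6 : 0 ≤ (1 - ‖w‖) * (4 * BD.HH w 0) := by
    rw [h2]
    have h6 : 0 < 1 - ‖w‖ ^ 2 := by linarith
    positivity
  have h7 := pow_le_pow_left₀ h6 h5 10
  rw [mul_pow] at h7
  calc 1 / 4 ^ 10 * (1 - ‖w‖) ^ 10 * BD.dU T (f 0)
      ≤ 1 / 4 ^ 10 * (1 - ‖w‖) ^ 10 * ((4 * BD.HH w 0) ^ 10 * BD.dU T (f w)) := by gcongr
    _ = 1 / 4 ^ 10 * ((1 - ‖w‖) ^ 10 * (4 * BD.HH w 0) ^ 10) * BD.dU T (f w) := by ring
    _ ≤ 1 / 4 ^ 10 * 4 ^ 10 * BD.dU T (f w) := by gcongr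
    _ = BD.dU T (f w) := by norm_num

/-- **[KO]** -/
theorem ko : BD.KO := by
  intro A
  refine ⟨(4 * |A|) ^ 10, fun T f φ h w hw w' hw' hA => ?_⟩
  refine (kog h hw hw').1.trans ?_
  have h1 : 0 ≤ BD.dU T (f w) := infDist_nonneg
  have h2 : 1 ≤ BD.HH w w' := by
    rw [mem_ball_zero_iff] at hw hw'
    exact BD.one_le_HH hw hw'
  have h3 : BD.HH w w' ≤ |A| := hA.trans (le_abs_self A)
  gcongr

end Vale.Agent.P155.T211B
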