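import Vale.Agent.P155.T211B.WG
import Vale.Agent.P155.H904.Dist
import Vale.Agent.P155.A.InLoop

/-!
# P155, BD block: the quasi-hyperbolic metric of the coarse cells

`kc T x y` : minimal length of a path of cells of `T`, the step `z ~ z'` having the length
`(1 + dF z)⁻¹ + (1 + dF z')⁻¹`.

* `kc_lip` : (Q1);
* `walks` : (Q2), (Q3), minimal walks from `z₀`.
-/

open Finset

namespace Vale.Agent.P155.T211B

open Vale.Agent.P155 LatCycle Relation

/-- weight of a cell -/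
noncomputable def wt (T : Temp) (x : Pt) : ℝ := (1 + (dF T.cells x : ℝ))⁻¹

theorem wt_pos (T : Temp) (x : Pt) : 0 < wt T x := by unfold wt; positivity

theorem wt_le_one (T : Temp) (x : Pt) : wt T x ≤ 1 := by
  unfold wt
  refine inv_le_one_of_one_le₀ ?_
  have : (0 : ℝ) ≤ dF T.cells x := Nat.cast_nonneg _
  linarith

theorem exists_notMem_cells (T : Temp) : ∃ y, y ∉ T.cells := by
  obtain ⟨F, _, h⟩ := exists_outside_far (γ := T.γ) ∅ Set.finite_empty
  exact ⟨F, h⟩

theorem cells_finite (T : Temp) : T.cells.Finite := inside_finite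

theorem dn_of_adj {a b : Pt} (h : Adj a b) : dn a b ≤ 1 := by
  rw [H904.dn_le_iff]
  unfold Adj at h
  have h1 := abs_nonneg (a.1 - b.1)
  have h2 := abs_nonneg (a.2 - b.2)
  constructor <;> omega

theorem adj_comm {a b : Pt} (h : Adj a b) : Adj b a := by
  unfold Adj at *
  rw [abs_sub_comm b.1, abs_sub_comm b.2]
  exact h

theorem wt_adj (T : Temp) {x y : Pt} (hx : x ∈ T.cells) (h : Adj x y) : wt T y ≤ 2 * wt T x := by
  have h1 := H904.dF_pos (exists_notMem_cells T) hx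
  have h2 := H904.dF_lip (exists_notMem_cells T) x y
  have h3 := dn_of_adj h
  unfold wt
  have h4 : (1 : ℝ) ≤ dF T.cells x := by exact_mod_cast h1
  have h5 : (dF T.cells x : ℝ) ≤ dF T.cells y + 1 := by exact_mod_cast (by omega)
  have h6 : (1 + (dF T.cells x : ℝ)) / 2 ≤ 1 + (dF T.cells y : ℝ) := by linarith
  have h7 : (0 : ℝ) < (1 + (dF T.cells x : ℝ)) / 2 := by positivity
  calc (1 + (dF T.cells y : ℝ))⁻¹ ≤ ((1 + (dF T.cells x : ℝ)) / 2)⁻¹ := inv_anti₀ h7 h6
    _ = 2 * (1 + (dF T.cells x : ℝ))⁻¹ := by rw [inv_div]; ring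

/-- chains as functions -/
theorem exists_walk {α : Type*} {r : α → α → Prop} {x y : α} (h : ReflTransGen r x y) :
    ∃ (m : ℕ) (z : ℕ → α), z 0 = x ∧ z m = y ∧ ∀ i < m, r (z i) (z (i + 1)) := by
  induction h with
  | refl => exact ⟨0, fun _ => x, rfl, rfl, fun i hi => absurd hi (Nat.not_lt_zero i)⟩
  | @tail b c hb hs ih =>
    obtain ⟨m, z, h0, h1, h2⟩ := ih
    refine ⟨m + 1, fun i => if i ≤ m then z i else c, ?_, ?_, ?_⟩
    · simp [h0]
    · simp
    · intro i hi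
      have hi1 : i ≤ m := by omega
      by_cases h3 : i + 1 ≤ m
      · simp only [hi1, h3, if_true]
        exact h2 i (by omega)
      · have h4 : i = m := by omega
        subst h4
        simp only [le_refl, if_true, h3, if_false]
        rw [h1]; exact hs

theorem cells_chain (T : Temp) {x y : Pt} (hx : x ∈ T.cells) (hy : y ∈ T.cells) :
    ReflTransGen (fun a b => Adj a b ∧ a ∈ T.cells ∧ b ∈ T.cells) x y := by
  have hx' : T.γ.inside x := hx
  have hy' : T.γ.inside y := hy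
  have hr : T.γ.Reach x y := reach_of_inside_iff (by tauto)
  unfold Reach at hr
  induction hr with
  | refl => exact ReflTransGen.refl
  | @tail b c hb hs ih =>
    have hc : T.γ.inside c := hy
    have hb1 : T.γ.inside b := hs.inside_iff.2 hc
    exact (ih hb1 hb1).tail ⟨hs.adj, hb1, hc⟩

/-- the weighted graph of the cells -/
noncomputable def cellG (T : Temp) : WG T.cells where
  adj x y := Adj x.1 y.1
  w x y := wt T x.1 + wt T y.1
  symm x y h := adj_comm h
  wsymm x y := add_comm _ _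
  pos x y _ := by have := wt_pos T x.1; have := wt_pos T y.1; linarith
  conn x y := by
    obtain ⟨m, z, h0, h1, h2⟩ := exists_walk (cells_chain T x.2 y.2)
    have hmem : ∀ i ≤ m, z i ∈ T.cells := by
      intro i hi
      rcases Nat.eq_or_lt_of_le hi with h | h
      · rw [h, h1]; exact y.2
      · exact (h2 i h).2.1
    classical
    refine ⟨m, fun i => if h : i ≤ m then ⟨z i, hmem i h⟩ else x, ?_, ?_, ?_⟩
    · simp only [Nat.zero_le, dif_pos]; exact Subtype.ext h0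
    · simp only [le_refl, dif_pos]; exact Subtype.ext h1
    · intro i hi
      have e1 : i ≤ m := by omega
      have e2 : i + 1 ≤ m := by omega
      simp only [e1, e2, dif_pos]
      exact (h2 i hi).1

instance (T : Temp) : Finite T.cells := (cells_finite T).to_subtype

open Classical in
/-- the metric of the cells (`0` off the cells) -/
noncomputable def kc (T : Temp) (x y : Pt) : ℝ :=
  if h : x ∈ T.cells ∧ y ∈ T.cells then (cellG T).k ⟨x, h.1⟩ ⟨y, h.2⟩ else 0

variable {T : Temp}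

theorem kc_of {x y : Pt} (hx : x ∈ T.cells) (hy : y ∈ T.cells) :
    kc T x y = (cellG T).k ⟨x, hx⟩ ⟨y, hy⟩ := by
  unfold kc
  rw [dif_pos ⟨hx, hy⟩]

theorem kc_nonneg (x y : Pt) : 0 ≤ kc T x y := by
  unfold kc
  split_ifs
  · exact (cellG T).k_nonneg _ _
  · exact le_rfl

theorem kc_self (x : Pt) : kc T x x = 0 := by
  unfold kc
  split_ifs
  · exact (cellG T).k_self _
  · rfl

theorem kc_comm (x y : Pt) : kc T x y = kc T y x := by
  by_cases hx : x ∈ T.cells
  · by_cases hy : y ∈ T.cells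
    · rw [kc_of hx hy, kc_of hy hx]; exact (cellG T).k_comm _ _
    · unfold kc; rw [dif_neg (by tauto), dif_neg (by tauto)]
  · unfold kc; rw [dif_neg (by tauto), dif_neg (by tauto)]

theorem kc_triangle {x y u : Pt} (hx : x ∈ T.cells) (hy : y ∈ T.cells) (hu : u ∈ T.cells) :
    kc T x u ≤ kc T x y + kc T y u := by
  rw [kc_of hx hu, kc_of hx hy, kc_of hy hu]
  exact (cellG T).k_triangle _ _ _

theorem kc_adj {x y : Pt} (hx : x ∈ T.cells) (hy : y ∈ T.cells) (h : Adj x y) :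
    kc T x y ≤ wt T x + wt T y := by
  rw [kc_of hx hy]
  exact (cellG T).k_adj (x := ⟨x, hx⟩) (y := ⟨y, hy⟩) h

/-- **(Q1)** -/
theorem kc_lip {w x y : Pt} (hw : w ∈ T.cells) (hx : x ∈ T.cells) (hy : y ∈ T.cells)
    (h : Adj x y) : |kc T w x - kc T w y| ≤ 3 / (1 + (dF T.cells x : ℝ)) := by
  have h1 := kc_triangle hw hx hy
  have h2 := kc_triangle hw hy hx
  have h3 := kc_adj hx hy h
  have h4 := kc_comm (T := T) y x
  have h5 := wt_adj T hx h
  have h6 : 3 / (1 + (dF T.cells x : ℝ)) = 3 * wt T x := by unfold wt; rw [div_eq_mul_inv]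
  rw [h6, abs_le]
  constructor <;> linarith

/-- a lower bound from any function which is Lipschitz for the metric -/
theorem le_kc {r : Pt → ℝ} {C : ℝ}
    (hr : ∀ x ∈ T.cells, ∀ y ∈ T.cells, Adj x y → r y - r x ≤ C * (wt T x + wt T y))
    {x y : Pt} (hx : x ∈ T.cells) (hy : y ∈ T.cells) : r y - r x ≤ C * kc T x y := by
  rw [kc_of hx hy]
  obtain ⟨m, z, hz, hl⟩ := (cellG T).exists_geo ⟨x, hx⟩ ⟨y, hy⟩
  rw [← hl]
  have key : ∀ n ≤ m, r (z n).1 - r x ≤ C * (cellG T).len n z := by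
    intro n
    induction n with
    | zero => intro _; rw [hz.1]; simp [WG.len]
    | succ n ih =>
      intro hn
      have h1 := ih (by omega)
      have h2 := hr _ (z n).2 _ (z (n + 1)).2 (hz.2.2 n (by omega))
      unfold WG.len at h1 ⊢
      rw [Finset.sum_range_succ, mul_add]
      have h3 : (cellG T).w (z n) (z (n + 1)) = wt T (z n).1 + wt T (z (n + 1)).1 := rfl
      rw [h3]
      linarith
  have := key m le_rfl
  rwa [hz.2.1] at this

/-- **(Q2), (Q3)**: minimal walks from `z₀` to all cells -/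
theorem walks (T : Temp) {z₀ : Pt} (hz₀ : z₀ ∈ T.cells) :
    ∃ (m : Pt → ℕ) (p : Pt → ℕ → Pt),
      (∀ z ∈ T.cells, p z 0 = z₀ ∧ p z (m z) = z ∧ (∀ i, p z i ∈ T.cells) ∧
        ∀ i < m z, Adj (p z i) (p z (i + 1))) ∧
      (∀ z ∈ T.cells, ∀ w ∈ T.cells, ∀ a > 0, ∀ A, (∀ i ≤ m z, A ≤ kc T w (p z i)) →
        ∑ i ∈ range (m z + 1), wt T (p z i) * Real.exp (-a * kc T w (p z i))
          ≤ (4 / a * (1 + Real.exp (a / 4 * 2)) + 1) * Real.exp (-(a / 2) * A)) ∧
      (∀ z ∈ T.cells, ∀ w ∈ T.cells, ∀ i ≤ m z, ∀ j ≤ m w,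
        kc T z w ≤ kc T w (p z i) + kc T z (p w j)) := by
  classical
  have hgeo : ∀ z : T.cells, ∃ m p, (cellG T).IsGeo m p ⟨z₀, hz₀⟩ z := fun z =>
    (cellG T).exists_geo _ _
  choose m p hp using hgeo
  set M : Pt → ℕ := fun z => if h : z ∈ T.cells then m ⟨z, h⟩ else 0 with hM
  set P : Pt → ℕ → Pt := fun z i => if h : z ∈ T.cells then (p ⟨z, h⟩ i).1 else z₀ with hP
  have eM : ∀ z (h : z ∈ T.cells), M z = m ⟨z, h⟩ := fun z h => by simp only [hM, dif_pos h]
  have eP : ∀ z (h : z ∈ T.cells) i, P z i = (p ⟨z, h⟩ i).1 := fun z h i => by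
    simp only [hP, dif_pos h]
  refine ⟨M, P, ?_, ?_, ?_⟩
  · intro z hz
    have h := (hp ⟨z, hz⟩).1
    refine ⟨?_, ?_, fun i => ?_, fun i hi => ?_⟩
    · rw [eP z hz, h.1]
    · rw [eP z hz, eM z hz, h.2.1]
    · rw [eP z hz]; exact (p ⟨z, hz⟩ i).2
    · rw [eP z hz, eP z hz]
      rw [eM z hz] at hi
      exact h.2.2 i hi
  · intro z hz w hw a ha A hA
    have h := hp ⟨z, hz⟩
    rw [eM z hz] at hA ⊢
    obtain ⟨i0, hi0, hmin⟩ := WG.exists_near (G := cellG T) ⟨w, hw⟩ (m ⟨z, hz⟩) (p ⟨z, hz⟩)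
    set μ := (cellG T).k ⟨w, hw⟩ (p ⟨z, hz⟩ i0) with hμ
    have ek : ∀ i, kc T w (P z i) = (cellG T).k ⟨w, hw⟩ (p ⟨z, hz⟩ i) := by
      intro i
      rw [eP z hz, kc_of hw (p ⟨z, hz⟩ i).2]
    have hAμ : A ≤ μ := by rw [hμ, ← ek]; exact hA i0 hi0
    have hsum := h.sum_exp (τ := 2) (fun i _ => by
      have h1 := wt_le_one T (p ⟨z, hz⟩ i).1
      have h2 := wt_le_one T (p ⟨z, hz⟩ (i + 1)).1
      show wt T _ + wt T _ ≤ 2
      linarith) ha ⟨w, hw⟩ hi0 hμ.symm hmin
    rw [Finset.sum_range_succ]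
    have h1 : ∑ i ∈ range (m ⟨z, hz⟩), wt T (P z i) * Real.exp (-a * kc T w (P z i))
        ≤ 4 / a * (1 + Real.exp (a / 4 * 2)) * Real.exp (-(a / 2) * μ) := by
      refine le_trans (Finset.sum_le_sum fun i hi => ?_) hsum
      rw [ek, eP z hz]
      gcongr
      show wt T _ ≤ wt T _ + wt T _
      have := wt_pos T (p ⟨z, hz⟩ (i + 1)).1
      linarith
    have hμ0 : 0 ≤ μ := (cellG T).k_nonneg _ _
    have h2 : wt T (P z (m ⟨z, hz⟩)) * Real.exp (-a * kc T w (P z (m ⟨z, hz⟩)))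
        ≤ 1 * Real.exp (-(a / 2) * μ) := by
      have h3 := hmin (m ⟨z, hz⟩) le_rfl
      have h4 : Real.exp (-a * kc T w (P z (m ⟨z, hz⟩))) ≤ Real.exp (-(a / 2) * μ) := by
        apply Real.exp_le_exp.2
        rw [ek]
        nlinarith
      exact mul_le_mul (wt_le_one T _) h4 (Real.exp_pos _).le zero_le_one
    have h5 : Real.exp (-(a / 2) * μ) ≤ Real.exp (-(a / 2) * A) := by
      apply Real.exp_le_exp.2
      nlinarith
    have h6 : 0 ≤ 4 / a * (1 + Real.exp (a / 4 * 2)) + 1 := by positivity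
    calc _ ≤ 4 / a * (1 + Real.exp (a / 4 * 2)) * Real.exp (-(a / 2) * μ)
          + 1 * Real.exp (-(a / 2) * μ) := add_le_add h1 h2
      _ = (4 / a * (1 + Real.exp (a / 4 * 2)) + 1) * Real.exp (-(a / 2) * μ) := by ring
      _ ≤ _ := mul_le_mul_of_nonneg_left h5 h6
  · intro z hz w hw i hi j hj
    rw [eM z hz] at hi
    rw [eM w hw] at hj
    have := WG.tripod (hp ⟨z, hz⟩) (hp ⟨w, hw⟩) hi hj
    rw [eP z hz, eP w hw, kc_of hz hw, kc_of hw (p ⟨z, hz⟩ i).2, kc_of hz (p ⟨w, hw⟩ j).2]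
    exact this

end Vale.Agent.P155.T211B
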