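import Vale.Agent.P155.T211B.Cell
import Vale.Agent.P155.K.Conn2
import Vale.Agent.P153.R2.L1.Rmt

/-!
# P155, BD block: the open polygon is simply connected, its Riemann map
-/

open Set Metric Relation
open Vale.Agent.P155.KConn

namespace Vale.Agent.P155.T211B

open Vale.Agent.P155 LatCycle

variable {δ : ℝ} {a : ℂ}

/-- the centre of a face -/
noncomputable def ctr (δ : ℝ) (a : ℂ) (f : Pt) : ℂ := pt δ a (f.1 + 1 / 2) (f.2 + 1 / 2)

theorem gx_ctr (hδ : 0 < δ) (f : Pt) : gx δ a (ctr δ a f) = f.1 + 1 / 2 := gx_pt hδ _ _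
theorem gy_ctr (hδ : 0 < δ) (f : Pt) : gy δ a (ctr δ a f) = f.2 + 1 / 2 := gy_pt hδ _ _

theorem compl_interior_region (hδ : 0 < δ) (S : Set Pt) :
    (interior (region δ a S))ᶜ = region δ a Sᶜ := by
  ext z
  rw [Set.mem_compl_iff, mem_interior_region_iff hδ]
  unfold region
  rw [Set.mem_iUnion₂]
  push Not
  constructor
  · rintro ⟨g, hg, hgS⟩; exact ⟨g, hgS, hg⟩
  · rintro ⟨g, hgS, hg⟩; exact ⟨g, hg, hgS⟩

/-- points of the open squares -/
theorem eq_of_open (hδ : 0 < δ) {f g : Pt} {z : ℂ} (h1 : (f.1 : ℝ) < gx δ a z)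
    (h2 : gx δ a z < f.1 + 1) (h3 : (f.2 : ℝ) < gy δ a z) (h4 : gy δ a z < f.2 + 1)
    (hg : z ∈ sqr δ a g) : g = f := by
  rw [mem_sqr hδ] at hg
  obtain ⟨g1, g2, g3, g4⟩ := hg
  have b1 : f.1 < g.1 + 1 := by exact_mod_cast h1.trans_le g2
  have b2 : g.1 < f.1 + 1 := by exact_mod_cast g1.trans_lt h2
  have b3 : f.2 < g.2 + 1 := by exact_mod_cast h3.trans_le g4
  have b4 : g.2 < f.2 + 1 := by exact_mod_cast g3.trans_lt h4
  exact Prod.ext (by omega) (by omega)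

theorem ctr_mem (hδ : 0 < δ) {S : Set Pt} {f : Pt} (hf : f ∈ S) :
    ctr δ a f ∈ interior (region δ a S) := by
  refine mem_interior_region hδ fun g hg => ?_
  have : g = f := by
    refine eq_of_open (a := a) hδ ?_ ?_ ?_ ?_ hg
    · rw [gx_ctr hδ]; linarith
    · rw [gx_ctr hδ]; linarith
    · rw [gy_ctr hδ]; linarith
    · rw [gy_ctr hδ]; linarith
  rw [this]; exact hf

/-- the half open segments from the centre -/
theorem star_piece (hδ : 0 < δ) {S : Set Pt} {f : Pt} (hf : f ∈ S) :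
    IsConnected (sqr δ a f ∩ interior (region δ a S)) := by
  have hc : ctr δ a f ∈ sqr δ a f ∩ interior (region δ a S) := by
    refine ⟨?_, ctr_mem hδ hf⟩
    rw [mem_sqr hδ, gx_ctr hδ, gy_ctr hδ]
    refine ⟨by linarith, by linarith, by linarith, by linarith⟩
  refine ⟨⟨_, hc⟩, isPreconnected_of_forall (ctr δ a f) ?_⟩
  rintro z ⟨hz1, hz2⟩
  let w : ℝ → ℂ := fun t => pt δ a (gx δ a z + t * (f.1 + 1 / 2 - gx δ a z))
    (gy δ a z + t * (f.2 + 1 / 2 - gy δ a z))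
  have hw : Continuous w := by
    have : Continuous (fun t : ℝ => ((gx δ a z + t * (f.1 + 1 / 2 - gx δ a z),
      gy δ a z + t * (f.2 + 1 / 2 - gy δ a z)) : ℝ × ℝ)) := by fun_prop
    exact pt_cont.comp this
  rw [mem_sqr hδ] at hz1
  obtain ⟨z1, z2, z3, z4⟩ := hz1
  refine ⟨w '' Icc 0 1, ?_, ?_, ?_, ?_⟩
  · rintro _ ⟨t, ⟨ht0, ht1⟩, rfl⟩
    rcases eq_or_lt_of_le ht0 with h0 | h0
    · have e : w t = z := by
        simp only [w, ← h0, zero_mul, add_zero]; exact pt_g hδ z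
      rw [e]
      exact ⟨by rw [mem_sqr hδ]; exact ⟨z1, z2, z3, z4⟩, hz2⟩
    · have a1 : (f.1 : ℝ) < gx δ a (w t) := by simp only [w, gx_pt hδ]; nlinarith
      have a2 : gx δ a (w t) < f.1 + 1 := by simp only [w, gx_pt hδ]; nlinarith
      have a3 : (f.2 : ℝ) < gy δ a (w t) := by simp only [w, gy_pt hδ]; nlinarith
      have a4 : gy δ a (w t) < f.2 + 1 := by simp only [w, gy_pt hδ]; nlinarith
      refine ⟨by rw [mem_sqr hδ]; exact ⟨a1.le, a2.le, a3.le, a4.le⟩, ?_⟩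
      refine mem_interior_region hδ fun g hg => ?_
      rw [eq_of_open hδ a1 a2 a3 a4 hg]; exact hf
  · refine ⟨1, by norm_num, ?_⟩
    simp only [w, one_mul, add_sub_cancel]
    rfl
  · exact ⟨0, by norm_num, by simp only [w, zero_mul, add_zero]; exact pt_g hδ z⟩
  · exact (isPreconnected_Icc.image _ hw.continuousOn)

/-- the midpoint of the common edge of two adjacent faces -/
theorem mid_mem (hδ : 0 < δ) {f g : Pt} (h : Adj f g) :
    ∃ z, z ∈ sqr δ a f ∧ z ∈ sqr δ a g ∧ ∀ k, z ∈ sqr δ a k → k = f ∨ k = g := by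
  refine ⟨pt δ a ((f.1 + g.1 : ℝ) / 2 + 1 / 2) ((f.2 + g.2 : ℝ) / 2 + 1 / 2), ?_⟩
  have key : ∀ k : Pt, pt δ a ((f.1 + g.1 : ℝ) / 2 + 1 / 2) ((f.2 + g.2 : ℝ) / 2 + 1 / 2) ∈
      sqr δ a k ↔ (2 * k.1 ≤ f.1 + g.1 + 1 ∧ f.1 + g.1 + 1 ≤ 2 * k.1 + 2 ∧
        2 * k.2 ≤ f.2 + g.2 + 1 ∧ f.2 + g.2 + 1 ≤ 2 * k.2 + 2) := by
    intro k
    rw [mem_sqr hδ, gx_pt hδ, gy_pt hδ]
    constructor
    · rintro ⟨h1, h2, h3, h4⟩
      refine ⟨?_, ?_, ?_, ?_⟩
      · have : (2 * k.1 : ℝ) ≤ f.1 + g.1 + 1 := by linarith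
        exact_mod_cast this
      · have : (f.1 + g.1 + 1 : ℝ) ≤ 2 * k.1 + 2 := by linarith
        exact_mod_cast this
      · have : (2 * k.2 : ℝ) ≤ f.2 + g.2 + 1 := by linarith
        exact_mod_cast this
      · have : (f.2 + g.2 + 1 : ℝ) ≤ 2 * k.2 + 2 := by linarith
        exact_mod_cast this
    · rintro ⟨h1, h2, h3, h4⟩
      have h1' : (2 * k.1 : ℝ) ≤ f.1 + g.1 + 1 := by exact_mod_cast h1
      have h2' : (f.1 + g.1 + 1 : ℝ) ≤ 2 * k.1 + 2 := by exact_mod_cast h2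
      have h3' : (2 * k.2 : ℝ) ≤ f.2 + g.2 + 1 := by exact_mod_cast h3
      have h4' : (f.2 + g.2 + 1 : ℝ) ≤ 2 * k.2 + 2 := by exact_mod_cast h4
      refine ⟨by linarith, by linarith, by linarith, by linarith⟩
  simp only [key]
  unfold Adj at h
  refine ⟨?_, ?_, ?_⟩
  · rcases abs_cases (f.1 - g.1) with ⟨h1, h2⟩ | ⟨h1, h2⟩ <;>
      rcases abs_cases (f.2 - g.2) with ⟨h3, h4⟩ | ⟨h3, h4⟩ <;> omega
  · rcases abs_cases (f.1 - g.1) with ⟨h1, h2⟩ | ⟨h1, h2⟩ <;>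
      rcases abs_cases (f.2 - g.2) with ⟨h3, h4⟩ | ⟨h3, h4⟩ <;> omega
  · rintro k ⟨k1, k2, k3, k4⟩
    rw [Prod.ext_iff, Prod.ext_iff]
    rcases abs_cases (f.1 - g.1) with ⟨h1, h2⟩ | ⟨h1, h2⟩ <;>
      rcases abs_cases (f.2 - g.2) with ⟨h3, h4⟩ | ⟨h3, h4⟩ <;> omega

theorem isConnected_interior (hδ : 0 < δ) {S : Set Pt} (hne : S.Nonempty)
    (hF : ∀ f ∈ S, ∀ g ∈ S, ReflTransGen (fun p q => Adj p q ∧ p ∈ S ∧ q ∈ S) f g) :
    IsConnected (interior (region δ a S)) := by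
  have e : interior (region δ a S) = ⋃ f ∈ S, (sqr δ a f ∩ interior (region δ a S)) := by
    ext z
    rw [Set.mem_iUnion₂]
    constructor
    · intro hz
      have h1 := interior_subset hz
      unfold region at h1
      rw [Set.mem_iUnion₂] at h1
      obtain ⟨f, hf, hzf⟩ := h1
      exact ⟨f, hf, hzf, hz⟩
    · rintro ⟨f, hf, _, hz⟩; exact hz
  rw [e]
  refine IsConnected.biUnion_of_reflTransGen hne (fun f hf => star_piece hδ hf) ?_
  intro f hf g hg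
  refine ReflTransGen.mono ?_ f g (hF f hf g hg)
  rintro p q ⟨hadj, hp, hq⟩
  refine ⟨?_, hp⟩
  obtain ⟨z, hz1, hz2, hz3⟩ := mid_mem (a := a) hδ hadj
  have hU : z ∈ interior (region δ a S) := by
    refine mem_interior_region hδ fun k hk => ?_
    rcases hz3 k hk with h | h <;> rw [h] <;> assumption
  exact ⟨z, ⟨hz1, hU⟩, ⟨hz2, hU⟩⟩

theorem isConnected_region (hδ : 0 < δ) {S : Set Pt} (hne : S.Nonempty)
    (hF : ∀ f ∈ S, ∀ g ∈ S, ReflTransGen (fun p q => Adj p q ∧ p ∈ S ∧ q ∈ S) f g) :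
    IsConnected (region δ a S) := by
  unfold region
  refine IsConnected.biUnion_of_reflTransGen hne (fun f _ => sqr_conn hδ f) ?_
  intro f hf g hg
  refine ReflTransGen.mono ?_ f g (hF f hf g hg)
  rintro p q ⟨hadj, hp, hq⟩
  exact ⟨sqr_adj hδ hadj, hp⟩

theorem compl_chain (T : Temp) {x y : Pt} (hx : x ∉ T.cells) (hy : y ∉ T.cells) :
    ReflTransGen (fun a b => Adj a b ∧ a ∈ T.cellsᶜ ∧ b ∈ T.cellsᶜ) x y := by
  have hx' : ¬ T.γ.inside x := hx
  have hy' : ¬ T.γ.inside y := hy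
  have hr : T.γ.Reach x y := reach_of_inside_iff (by tauto)
  unfold Reach at hr
  induction hr with
  | refl => exact ReflTransGen.refl
  | @tail b c hb hs ih =>
    have hb1 : ¬ T.γ.inside b := fun h => hy' (hs.inside_iff.1 h)
    exact (ih hb1 hb1).tail ⟨hs.adj, hb1, hy'⟩

theorem not_bdd_region_compl (hδ : 0 < δ) {S : Set Pt} (hS : S.Finite) :
    ¬ Bornology.IsBounded (region δ a Sᶜ) := by
  intro hb
  obtain ⟨M, hM⟩ := hb.exists_norm_le
  obtain ⟨N, hN⟩ : ∃ N : ℤ, ∀ n : ℤ, N ≤ n → ((n, 0) : Pt) ∉ S := by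
    obtain ⟨N, hN⟩ := (hS.image Prod.fst).bddAbove
    refine ⟨N + 1, fun n hn h => ?_⟩
    have := hN ⟨_, h, rfl⟩
    simp only at this
    omega
  obtain ⟨n, hn⟩ := exists_nat_gt ((M + ‖a‖) / δ)
  set k : ℤ := max N n with hk
  have hmem : pt δ a k 0 ∈ region δ a Sᶜ := by
    unfold region
    rw [Set.mem_iUnion₂]
    refine ⟨(k, 0), hN k (le_max_left _ _), ?_⟩
    rw [mem_sqr hδ, gx_pt hδ, gy_pt hδ]
    simp
  have h1 := hM _ hmem
  have h2 : a.re + δ * k ≤ ‖pt δ a k 0‖ := by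
    have : (pt δ a k 0).re = a.re + δ * k := rfl
    rw [← this]
    exact Complex.re_le_norm _
  have h3 : -‖a‖ ≤ a.re := by
    have := Complex.abs_re_le_norm a
    rw [abs_le] at this
    exact this.1
  have h4 : (n : ℝ) ≤ k := by
    have : (n : ℤ) ≤ k := le_max_right _ _
    exact_mod_cast this
  rw [div_lt_iff₀ hδ] at hn
  nlinarith

/-- the open polygon in coarse units -/
def UU (T : Temp) (δ : ℝ) (a : ℂ) : Set ℂ := interior (region δ a T.cells)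

theorem UU_open (T : Temp) (δ : ℝ) (a : ℂ) : IsOpen (UU T δ a) := isOpen_interior

theorem cells_nonempty (T : Temp) : T.cells.Nonempty := by
  obtain ⟨F, hF⟩ := exists_inside (γ := T.γ)
  exact ⟨F, hF⟩

/-- **The open polygon is a domain without holes.** -/
theorem rdom (hδ : 0 < δ) (a : ℂ) (T : Temp) : P153.TOP.RMT.RDom (UU T δ a) := by
  have hc : IsConnected (UU T δ a) :=
    isConnected_interior hδ (cells_nonempty T) fun f hf g hg => cells_chain T hf hg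
  refine ⟨hc, P153.TOP.hasLogOn_of_noBdd (UU_open T δ a) hc.isPreconnected ?_⟩
  intro z hz
  have hcomp : (UU T δ a)ᶜ = region δ a T.cellsᶜ := compl_interior_region hδ _
  refine ⟨(UU T δ a)ᶜ, ?_, hz, subset_rfl, ?_⟩
  · rw [hcomp]
    exact (isConnected_region hδ (exists_notMem_cells T)
      fun f hf g hg => compl_chain T hf hg).isPreconnected
  · rw [hcomp]
    exact not_bdd_region_compl hδ (cells_finite T)

theorem UU_ne_univ (hδ : 0 < δ) (a : ℂ) (T : Temp) : UU T δ a ≠ univ := by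
  intro h
  have hcomp : (UU T δ a)ᶜ = region δ a T.cellsᶜ := compl_interior_region hδ _
  rw [h, Set.compl_univ] at hcomp
  have := not_bdd_region_compl (δ := δ) (a := a) hδ (cells_finite T)
  rw [← hcomp] at this
  exact this Bornology.isBounded_empty

/-- the polygon in terms of the fine faces -/
theorem UU_eq (hδ : 0 < δ) (a : ℂ) (T : Temp) :
    UU T (2 * δ) a = interior (region δ a T.faceSet) := by
  unfold UU
  congr 1
  ext z
  unfold region
  simp only [Set.mem_iUnion₂]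
  constructor
  · rintro ⟨F, hF, hz⟩
    obtain ⟨f, ef, zf⟩ := sqr_fine hδ hz
    exact ⟨f, A1.mem_faceSet.2 (by rw [ef]; exact hF), zf⟩
  · rintro ⟨f, hf, hz⟩
    exact ⟨_, A1.mem_faceSet.1 hf, sqr_coarse hδ hz⟩

/-- the Riemann map with a given zero -/
theorem exists_riemann (hδ : 0 < δ) (a : ℂ) (T : Temp) {z₀ : ℂ} (hz₀ : z₀ ∈ UU T δ a) :
    ∃ φ : ℂ → ℂ, DifferentiableOn ℂ φ (UU T δ a) ∧ InjOn φ (UU T δ a) ∧
      φ '' UU T δ a = ball 0 1 ∧ (∀ z ∈ UU T δ a, deriv φ z ≠ 0) ∧ φ z₀ = 0 :=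
  P153.TOP.RMT.exists_onto_disc (UU_open T δ a) (rdom hδ a T) (UU_ne_univ hδ a T) hz₀

end Vale.Agent.P155.T211B
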