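import Mathlib

/-!
# P155, BD block: the hyperbolic metric of the unit disc

`hyp z w = 2 arsinh (|z - w| / √((1 - |z|²)(1 - |w|²)))`.

* `hyp_triangle`, `hyp_comm`, `hyp_nonneg`;
* `hyp_real` : `hyp (tanh (s/2)) (tanh (t/2)) = |s - t|`;
* `hyp_le_of_ball`, `hyp_le_of_seg` : the upper bounds by the Schwarz-Pick lemma;
* `exp_neg_hyp_le` : `exp (- hyp z w) ≤ 1 - δ²`;
* `one_sub_mob` : invariance.
-/

open Metric Set Complex
open scoped ComplexConjugate

namespace Vale.Agent.P155.T211B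

/-- the hyperbolic metric of the disc -/
noncomputable def hyp (z w : ℂ) : ℝ :=
  2 * Real.arsinh (‖z - w‖ / √((1 - ‖z‖ ^ 2) * (1 - ‖w‖ ^ 2)))

theorem hyp_comm (z w : ℂ) : hyp z w = hyp w z := by
  unfold hyp
  rw [norm_sub_rev, mul_comm (1 - ‖z‖ ^ 2)]

theorem hyp_nonneg (z w : ℂ) : 0 ≤ hyp z w := by
  unfold hyp
  have : 0 ≤ Real.arsinh (‖z - w‖ / √((1 - ‖z‖ ^ 2) * (1 - ‖w‖ ^ 2))) := by
    rw [Real.arsinh_nonneg_iff]; positivity
  linarith

theorem hyp_self (z : ℂ) : hyp z z = 0 := by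
  unfold hyp; simp

theorem one_sub_pos {z : ℂ} (hz : ‖z‖ < 1) : 0 < 1 - ‖z‖ ^ 2 := by
  have := norm_nonneg z
  nlinarith

theorem one_sub_ne {z : ℂ} (hz : ‖z‖ < 1) : (1 : ℂ) - z ≠ 0 := by
  intro h
  have : z = 1 := by linear_combination -h
  rw [this, norm_one] at hz
  exact lt_irrefl _ hz

theorem cay_im (z : ℂ) (hz : ‖z‖ < 1) :
    (I * (1 + z) / (1 - z)).im = (1 - ‖z‖ ^ 2) / ‖1 - z‖ ^ 2 := by
  have h1 := one_sub_ne hz
  have h2 : I * (1 + z) / (1 - z) = I * (1 + z) * conj (1 - z) / ((‖1 - z‖ ^ 2 : ℝ) : ℂ) := by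
    have e : ((‖1 - z‖ ^ 2 : ℝ) : ℂ) = (1 - z) * conj (1 - z) := by
      rw [Complex.mul_conj, Complex.normSq_eq_norm_sq]
    have h3 : conj (1 - z) ≠ 0 := by
      rw [Ne, map_eq_zero]; exact h1
    rw [e]
    field_simp
  rw [h2, Complex.div_ofReal_im]
  congr 1
  have : ‖z‖ ^ 2 = z.re ^ 2 + z.im ^ 2 := by
    rw [← Complex.normSq_eq_norm_sq, Complex.normSq_apply]; ring
  rw [this]
  simp
  ring

/-- the Cayley transform -/
noncomputable def cay (z : ℂ) (hz : ‖z‖ < 1) : UpperHalfPlane :=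
  ⟨I * (1 + z) / (1 - z), by
    rw [cay_im z hz]
    have h1 := norm_pos_iff.2 (one_sub_ne hz)
    have := one_sub_pos hz
    positivity⟩

theorem hyp_eq_dist {z w : ℂ} (hz : ‖z‖ < 1) (hw : ‖w‖ < 1) :
    hyp z w = dist (cay z hz) (cay w hw) := by
  rw [UpperHalfPlane.dist_eq]
  unfold hyp
  congr 2
  have h1 := one_sub_ne hz
  have h2 := one_sub_ne hw
  have e1 : ((cay z hz : UpperHalfPlane) : ℂ) = I * (1 + z) / (1 - z) := rfl
  have e2 : ((cay w hw : UpperHalfPlane) : ℂ) = I * (1 + w) / (1 - w) := rfl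
  have e3 : (cay z hz).im = (1 - ‖z‖ ^ 2) / ‖1 - z‖ ^ 2 := cay_im z hz
  have e4 : (cay w hw).im = (1 - ‖w‖ ^ 2) / ‖1 - w‖ ^ 2 := cay_im w hw
  rw [e1, e2, e3, e4, dist_eq_norm]
  have h3 : I * (1 + z) / (1 - z) - I * (1 + w) / (1 - w) =
      2 * I * (z - w) / ((1 - z) * (1 - w)) := by
    field_simp; ring
  rw [h3, norm_div, norm_mul, norm_mul, norm_mul, Complex.norm_I, Complex.norm_two]
  have p1 := norm_pos_iff.2 h1
  have p2 := norm_pos_iff.2 h2
  have h4 : (1 - ‖z‖ ^ 2) / ‖1 - z‖ ^ 2 * ((1 - ‖w‖ ^ 2) / ‖1 - w‖ ^ 2) =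
      (1 - ‖z‖ ^ 2) * (1 - ‖w‖ ^ 2) / (‖1 - z‖ * ‖1 - w‖) ^ 2 := by
    field_simp
  rw [h4, Real.sqrt_div' _ (by positivity), Real.sqrt_sq (by positivity)]
  have h5 : 0 < √((1 - ‖z‖ ^ 2) * (1 - ‖w‖ ^ 2)) :=
    Real.sqrt_pos.2 (mul_pos (one_sub_pos hz) (one_sub_pos hw))
  field_simp

theorem hyp_triangle {x y z : ℂ} (hx : ‖x‖ < 1) (hy : ‖y‖ < 1) (hz : ‖z‖ < 1) :
    hyp x z ≤ hyp x y + hyp y z := by
  rw [hyp_eq_dist hx hz, hyp_eq_dist hx hy, hyp_eq_dist hy hz]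
  exact dist_triangle _ _ _

/-! ### the real diameter -/

/-- points of the real diameter -/
noncomputable def th (t : ℝ) : ℝ := Real.sinh (t / 2) / Real.cosh (t / 2)

theorem th_zero : th 0 = 0 := by simp [th]

theorem th_neg (t : ℝ) : th (-t) = -th t := by
  unfold th
  rw [neg_div, Real.sinh_neg, Real.cosh_neg, neg_div]

theorem one_sub_th (t : ℝ) : 1 - th t ^ 2 = 1 / Real.cosh (t / 2) ^ 2 := by
  unfold th
  have := Real.cosh_pos (t / 2)
  have h := Real.cosh_sq (t / 2)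
  rw [div_pow]
  field_simp
  linarith

theorem abs_th_lt (t : ℝ) : |th t| < 1 := by
  have h := one_sub_th t
  have h2 : 0 < 1 / Real.cosh (t / 2) ^ 2 := by
    have := Real.cosh_pos (t / 2)
    positivity
  rw [← sq_lt_one_iff_abs_lt_one]
  linarith

theorem norm_th_lt (t : ℝ) : ‖(th t : ℂ)‖ < 1 := by
  rw [Complex.norm_real]; exact abs_th_lt t

theorem hasDerivAt_th (t : ℝ) : HasDerivAt th ((1 - th t ^ 2) / 2) t := by
  have h1 : HasDerivAt (fun t : ℝ => t / 2) (1 / 2) t := (hasDerivAt_id t).div_const 2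
  have h2 := (Real.hasDerivAt_sinh (t / 2)).comp t h1
  have h3 := (Real.hasDerivAt_cosh (t / 2)).comp t h1
  have h4 := h2.div h3 (Real.cosh_pos _).ne'
  refine HasDerivAt.congr_deriv h4 ?_
  rw [one_sub_th]
  have h5 := Real.cosh_sq (t / 2)
  have h6 := Real.cosh_pos (t / 2)
  simp only [Function.comp_apply]
  field_simp
  nlinarith

theorem th_nonneg {t : ℝ} (ht : 0 ≤ t) : 0 ≤ th t := by
  unfold th
  have h1 : 0 ≤ Real.sinh (t / 2) := Real.sinh_nonneg_iff.2 (by positivity)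
  have h2 := Real.cosh_pos (t / 2)
  positivity

/-- every real number of the disc is of the form `th t` -/
theorem exists_th {x : ℝ} (hx0 : 0 ≤ x) (hx : x < 1) : ∃ t, 0 ≤ t ∧ th t = x := by
  refine ⟨2 * Real.arsinh (x / √(1 - x ^ 2)), ?_, ?_⟩
  · have : 0 ≤ Real.arsinh (x / √(1 - x ^ 2)) := by
      rw [Real.arsinh_nonneg_iff]; positivity
    linarith
  · unfold th
    rw [mul_div_cancel_left₀ _ (two_ne_zero), Real.sinh_arsinh, Real.cosh_arsinh]
    have h1 : 0 < 1 - x ^ 2 := by nlinarith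
    have h2 : 0 < √(1 - x ^ 2) := Real.sqrt_pos.2 h1
    have h3 : 1 + (x / √(1 - x ^ 2)) ^ 2 = (1 / √(1 - x ^ 2)) ^ 2 := by
      rw [div_pow, div_pow, Real.sq_sqrt h1.le]
      field_simp
      ring
    rw [h3, Real.sqrt_sq (by positivity)]
    field_simp

theorem hyp_real (s t : ℝ) : hyp (th s : ℂ) (th t : ℂ) = |s - t| := by
  unfold hyp
  have e1 : ‖(th s : ℂ)‖ ^ 2 = th s ^ 2 := by rw [Complex.norm_real, Real.norm_eq_abs, sq_abs]
  have e2 : ‖(th t : ℂ)‖ ^ 2 = th t ^ 2 := by rw [Complex.norm_real, Real.norm_eq_abs, sq_abs]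
  rw [e1, e2, one_sub_th, one_sub_th, ← Complex.ofReal_sub, Complex.norm_real, Real.norm_eq_abs]
  have c1 := Real.cosh_pos (s / 2)
  have c2 := Real.cosh_pos (t / 2)
  have h1 : (1 / Real.cosh (s / 2) ^ 2 * (1 / Real.cosh (t / 2) ^ 2)) =
      (1 / (Real.cosh (s / 2) * Real.cosh (t / 2))) ^ 2 := by
    field_simp
  rw [h1, Real.sqrt_sq (by positivity)]
  have h2 : th s - th t = Real.sinh ((s - t) / 2) / (Real.cosh (s / 2) * Real.cosh (t / 2)) := by
    unfold th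
    rw [sub_div, Real.sinh_sub]
    field_simp
  rw [h2, abs_div, abs_of_pos (by positivity : 0 < Real.cosh (s / 2) * Real.cosh (t / 2))]
  have h3 : |Real.sinh ((s - t) / 2)| / (Real.cosh (s / 2) * Real.cosh (t / 2)) /
      (1 / (Real.cosh (s / 2) * Real.cosh (t / 2))) = |Real.sinh ((s - t) / 2)| := by
    field_simp
  rw [h3]
  rcases le_total 0 (s - t) with h | h
  · rw [abs_of_nonneg (Real.sinh_nonneg_iff.2 (by linarith)), Real.arsinh_sinh, abs_of_nonneg h]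
    ring
  · rw [abs_of_nonpos (Real.sinh_nonpos_iff.2 (by linarith)), Real.arsinh_neg, Real.arsinh_sinh,
      abs_of_nonpos h]
    ring

/-! ### pseudohyperbolic distance -/

/-- `1 - δ²` -/
noncomputable def del (z w : ℂ) : ℝ := (1 - ‖z‖ ^ 2) * (1 - ‖w‖ ^ 2) / ‖1 - conj w * z‖ ^ 2

theorem norm_sq_id (z w : ℂ) :
    ‖1 - conj w * z‖ ^ 2 = ‖z - w‖ ^ 2 + (1 - ‖z‖ ^ 2) * (1 - ‖w‖ ^ 2) := by
  have h : ∀ u : ℂ, ‖u‖ ^ 2 = u.re ^ 2 + u.im ^ 2 := by
    intro u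
    rw [← Complex.normSq_eq_norm_sq, Complex.normSq_apply]; ring
  rw [h, h, h, h]
  simp
  ring

theorem mob_den_pos {z w : ℂ} (hz : ‖z‖ < 1) (hw : ‖w‖ < 1) : 0 < ‖1 - conj w * z‖ ^ 2 := by
  rw [norm_sq_id]
  have := mul_pos (one_sub_pos hz) (one_sub_pos hw)
  positivity

theorem del_pos {z w : ℂ} (hz : ‖z‖ < 1) (hw : ‖w‖ < 1) : 0 < del z w :=
  div_pos (mul_pos (one_sub_pos hz) (one_sub_pos hw)) (mob_den_pos hz hw)

theorem del_le_one {z w : ℂ} (hz : ‖z‖ < 1) (hw : ‖w‖ < 1) : del z w ≤ 1 := by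
  unfold del
  rw [div_le_one (mob_den_pos hz hw), norm_sq_id]
  nlinarith [sq_nonneg ‖z - w‖]

theorem mob_norm_sq {z w : ℂ} (hz : ‖z‖ < 1) (hw : ‖w‖ < 1) :
    ‖(z - w) / (1 - conj w * z)‖ ^ 2 = 1 - del z w := by
  have h := mob_den_pos hz hw
  unfold del
  rw [norm_div, div_pow, eq_sub_iff_add_eq, ← add_div, div_eq_one_iff_eq h.ne', norm_sq_id]

theorem mob_lt {z w : ℂ} (hz : ‖z‖ < 1) (hw : ‖w‖ < 1) : ‖(z - w) / (1 - conj w * z)‖ < 1 := by
  have h1 := mob_norm_sq hz hw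
  have h2 := del_pos hz hw
  have h3 := norm_nonneg ((z - w) / (1 - conj w * z))
  nlinarith

theorem hyp_eq_del {z w : ℂ} (hz : ‖z‖ < 1) (hw : ‖w‖ < 1) :
    hyp z w = 2 * Real.arsinh √(1 / del z w - 1) := by
  unfold hyp
  congr 2
  have h1 := mul_pos (one_sub_pos hz) (one_sub_pos hw)
  have h2 : 1 / del z w - 1 = (‖z - w‖ / √((1 - ‖z‖ ^ 2) * (1 - ‖w‖ ^ 2))) ^ 2 := by
    unfold del
    rw [div_pow, Real.sq_sqrt h1.le, one_div_div, norm_sq_id, add_div, div_self h1.ne']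
    ring
  rw [h2, Real.sqrt_sq (by positivity)]

theorem cosh_half_hyp {z w : ℂ} (hz : ‖z‖ < 1) (hw : ‖w‖ < 1) :
    Real.cosh (hyp z w / 2) ^ 2 = 1 / del z w := by
  have h1 := del_pos hz hw
  have h2 := del_le_one hz hw
  have h3 : 0 ≤ 1 / del z w - 1 := by
    rw [sub_nonneg, le_div_iff₀ h1]; linarith
  rw [hyp_eq_del hz hw, mul_div_cancel_left₀ _ (two_ne_zero), Real.cosh_sq, Real.sinh_arsinh,
    Real.sq_sqrt h3]
  ring

/-- the exponential of the distance -/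
theorem exp_neg_hyp_le {z w : ℂ} (hz : ‖z‖ < 1) (hw : ‖w‖ < 1) :
    Real.exp (-hyp z w) ≤ del z w := by
  have h1 := cosh_half_hyp hz hw
  have h2 := del_pos hz hw
  have h3 : Real.cosh (hyp z w / 2) ≤ Real.exp (hyp z w / 2) := by
    rw [Real.cosh_eq]
    have : Real.exp (-(hyp z w / 2)) ≤ Real.exp (hyp z w / 2) := by
      apply Real.exp_le_exp.2
      have := hyp_nonneg z w
      linarith
    linarith
  have h4 : 1 / del z w ≤ Real.exp (hyp z w) := by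
    rw [← h1]
    calc Real.cosh (hyp z w / 2) ^ 2 ≤ Real.exp (hyp z w / 2) ^ 2 :=
          pow_le_pow_left₀ (Real.cosh_pos _).le h3 2
      _ = Real.exp (hyp z w) := by rw [← Real.exp_nat_mul]; congr 1; push_cast; ring
  rw [Real.exp_neg]
  rw [div_le_iff₀ h2] at h4
  rw [inv_le_iff_one_le_mul₀ (Real.exp_pos _), mul_comm]
  exact h4

/-- conversely -/
theorem del_le_exp {z w : ℂ} (hz : ‖z‖ < 1) (hw : ‖w‖ < 1) :
    del z w ≤ 4 * Real.exp (-hyp z w) := by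
  have h1 := cosh_half_hyp hz hw
  have h2 := del_pos hz hw
  have h3 : Real.exp (hyp z w / 2) / 2 ≤ Real.cosh (hyp z w / 2) := by
    rw [Real.cosh_eq]
    have := Real.exp_pos (-(hyp z w / 2))
    linarith
  have h4 : Real.exp (hyp z w) / 4 ≤ 1 / del z w := by
    rw [← h1]
    calc Real.exp (hyp z w) / 4 = (Real.exp (hyp z w / 2) / 2) ^ 2 := by
          rw [div_pow, ← Real.exp_nat_mul]
          norm_num
          ring
      _ ≤ _ := pow_le_pow_left₀ (by positivity) h3 2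
  rw [Real.exp_neg]
  rw [le_div_iff₀ h2] at h4
  have h5 := Real.exp_pos (hyp z w)
  rw [← div_eq_mul_inv, le_div_iff₀ h5]
  linarith

/-- small distances -/
theorem hyp_le_of_mob {z w : ℂ} (hz : ‖z‖ < 1) (hw : ‖w‖ < 1) {τ : ℝ} (hτ : τ ≤ 1 / 2)
    (h : ‖(z - w) / (1 - conj w * z)‖ ≤ τ) : hyp z w ≤ 3 * τ := by
  have h0 : 0 ≤ τ := (norm_nonneg _).trans h
  have h1 := mob_norm_sq hz hw
  have h2 : 1 - del z w ≤ τ ^ 2 := by
    rw [← h1]; exact pow_le_pow_left₀ (norm_nonneg _) h 2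
  have h3 := del_pos hz hw
  have h4 := del_le_one hz hw
  have h5 : 3 / 4 ≤ del z w := by nlinarith
  have h6 : 1 / del z w - 1 ≤ (3 / 2 * τ) ^ 2 := by
    rw [div_sub_one h3.ne', div_le_iff₀ h3]
    nlinarith [sq_nonneg τ]
  rw [hyp_eq_del hz hw]
  have h7 : √(1 / del z w - 1) ≤ 3 / 2 * τ := by
    rw [Real.sqrt_le_left (by positivity)]
    exact h6
  have h8 : ∀ x : ℝ, 0 ≤ x → Real.arsinh x ≤ x := by
    intro x hx
    have h10 := Real.arsinh_le_arsinh.2 (Real.self_le_sinh_iff.2 hx)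
    rwa [Real.arsinh_sinh] at h10
  have h9 := h8 _ (Real.sqrt_nonneg (1 / del z w - 1))
  linarith

/-- **Schwarz-Pick** -/
theorem hyp_le_of_ball {φ : ℂ → ℂ} {z₀ : ℂ} {r : ℝ} (hr : 0 < r)
    (hφ : DifferentiableOn ℂ φ (ball z₀ r)) (hmap : ∀ z ∈ ball z₀ r, ‖φ z‖ < 1) {z : ℂ}
    (hz : ‖z - z₀‖ ≤ r / 2) : hyp (φ z) (φ z₀) ≤ 3 * (‖z - z₀‖ / r) := by
  have hz₀ : z₀ ∈ ball z₀ r := mem_ball_self hr
  have hzb : z ∈ ball z₀ r := by rw [mem_ball, dist_eq_norm]; linarith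
  set g : ℂ → ℂ := fun u => (φ u - φ z₀) / (1 - conj (φ z₀) * φ u) with hg
  have hden : ∀ u ∈ ball z₀ r, 1 - conj (φ z₀) * φ u ≠ 0 := by
    intro u hu h
    have := mob_den_pos (hmap u hu) (hmap z₀ hz₀)
    rw [h, norm_zero] at this
    norm_num at this
  have hgd : DifferentiableOn ℂ g (ball z₀ r) :=
    (hφ.sub_const _).div ((differentiableOn_const 1).sub (hφ.const_mul _)) hden
  have hg0 : g z₀ = 0 := by simp [hg]
  have hmaps : MapsTo g (ball z₀ r) (closedBall (g z₀) 1) := by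
    intro u hu
    rw [hg0, mem_closedBall_zero_iff]
    exact (mob_lt (hmap u hu) (hmap z₀ hz₀)).le
  have h1 := Complex.dist_le_div_mul_dist_of_mapsTo_ball hgd hmaps hzb
  rw [hg0, dist_zero_right, dist_eq_norm] at h1
  refine hyp_le_of_mob (hmap z hzb) (hmap z₀ hz₀) ?_ ?_
  · rw [div_le_iff₀ hr]; linarith
  · have : 1 / r * ‖z - z₀‖ = ‖z - z₀‖ / r := by ring
    rw [← this]; exact h1

/-- along a segment -/
theorem hyp_le_of_seg {φ : ℂ → ℂ} {U : Set ℂ} (hφ : DifferentiableOn ℂ φ U)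
    (hmap : ∀ z ∈ U, ‖φ z‖ < 1) {z w : ℂ} {r : ℝ} (hr : 0 < r)
    (hseg : ∀ s ∈ Icc (0 : ℝ) 1, ball (z + s * (w - z)) r ⊆ U) :
    hyp (φ z) (φ w) ≤ 3 * (‖w - z‖ / r) := by
  obtain ⟨n, hn⟩ := exists_nat_gt (2 * ‖w - z‖ / r)
  have hn0 : 0 < n := by
    rcases Nat.eq_zero_or_pos n with h | h
    · rw [h, Nat.cast_zero] at hn
      exact absurd hn (not_lt.2 (by positivity))
    · exact h
  have hnR : (0 : ℝ) < n := by exact_mod_cast hn0
  set p : ℕ → ℂ := fun i => z + ((i / n : ℝ) : ℂ) * (w - z) with hp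
  have hpU : ∀ i ≤ n, ball (p i) r ⊆ U := by
    intro i hi
    refine hseg (i / n) ⟨by positivity, ?_⟩
    rw [div_le_one hnR]; exact_mod_cast hi
  have hstep : ∀ i < n, hyp (φ (p i)) (φ (p (i + 1))) ≤ 3 * (‖w - z‖ / n / r) := by
    intro i hi
    have e : ‖p i - p (i + 1)‖ = ‖w - z‖ / n := by
      have : p i - p (i + 1) = -(((1 / n : ℝ) : ℂ) * (w - z)) := by
        simp only [hp]; push_cast; field_simp; ring
      rw [this, norm_neg, norm_mul, Complex.norm_real, Real.norm_of_nonneg (by positivity)]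
      ring
    have h1 := hyp_le_of_ball hr (hφ.mono (hpU (i + 1) (by omega)))
      (fun u hu => hmap u (hpU (i + 1) (by omega) hu)) (z := p i) (by
        rw [e, div_le_iff₀ hnR]
        rw [div_lt_iff₀ hr] at hn
        linarith)
    rwa [e] at h1
  have hin : ∀ i ≤ n, ‖φ (p i)‖ < 1 := fun i hi => hmap _ (hpU i hi (mem_ball_self hr))
  have key : ∀ i ≤ n, hyp (φ z) (φ (p i)) ≤ i * (3 * (‖w - z‖ / n / r)) := by
    intro i
    induction i with
    | zero =>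
      intro _
      have : p 0 = z := by simp [hp]
      rw [this, hyp_self]; simp
    | succ i ih =>
      intro hi
      have h1 := ih (by omega)
      have h2 := hstep i (by omega)
      have h0 : ‖φ z‖ < 1 := by
        have := hin 0 (Nat.zero_le n)
        simpa [hp] using this
      have h3 := hyp_triangle h0 (hin i (by omega)) (hin (i + 1) hi)
      push_cast
      linarith
  have h1 := key n le_rfl
  have e1 : p n = w := by
    simp only [hp]
    rw [div_self hnR.ne']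
    push_cast; ring
  rw [e1] at h1
  refine h1.trans (le_of_eq ?_)
  field_simp

end Vale.Agent.P155.T211B
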