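import Vale.Agent.P155.T211B.Simp
import Vale.Agent.P155.T211B.Hyp

/-!
# P155, BD block: the hyperbolic metric of the polygon and the cells

coarse units: mesh `1`, origin `0`; `U T` the open polygon, `cc f` the centre of the cell `f`.
-/

open Set Metric Relation
open Vale.Agent.P155.KConn

namespace Vale.Agent.P155.T211B

open Vale.Agent.P155 LatCycle

/-- the open polygon -/
def U (T : Temp) : Set ℂ := UU T 1 0

/-- the closed square of a cell -/
def sq (f : Pt) : Set ℂ := sqr 1 0 f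

/-- the centre of a cell -/
noncomputable def cc (f : Pt) : ℂ := ⟨f.1 + 1 / 2, f.2 + 1 / 2⟩

theorem gx_eq (z : ℂ) : gx 1 0 z = z.re := by simp [gx]
theorem gy_eq (z : ℂ) : gy 1 0 z = z.im := by simp [gy]

theorem mem_sq {z : ℂ} {f : Pt} : z ∈ sq f ↔
    (f.1 : ℝ) ≤ z.re ∧ z.re ≤ f.1 + 1 ∧ (f.2 : ℝ) ≤ z.im ∧ z.im ≤ f.2 + 1 := by
  unfold sq
  rw [mem_sqr one_pos, gx_eq, gy_eq]

theorem cc_mem_sq (f : Pt) : cc f ∈ sq f := by
  rw [mem_sq]
  simp only [cc]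
  refine ⟨by linarith, by linarith, by linarith, by linarith⟩

theorem mem_U {T : Temp} {z : ℂ} : z ∈ U T ↔ ∀ g, z ∈ sq g → g ∈ T.cells :=
  mem_interior_region_iff one_pos

theorem U_open (T : Temp) : IsOpen (U T) := isOpen_interior

theorem exists_sq (z : ℂ) : ∃ f : Pt, z ∈ sq f := by
  refine ⟨(⌊z.re⌋, ⌊z.im⌋), ?_⟩
  rw [mem_sq]
  exact ⟨Int.floor_le _, (Int.lt_floor_add_one _).le, Int.floor_le _, (Int.lt_floor_add_one _).le⟩

theorem cc_mem_U {T : Temp} {f : Pt} (hf : f ∈ T.cells) : cc f ∈ U T := by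
  rw [mem_U]
  intro g hg
  rw [mem_sq] at hg
  simp only [cc] at hg
  obtain ⟨g1, g2, g3, g4⟩ := hg
  have a1 : (g.1 : ℝ) < f.1 + 1 := by linarith
  have a2 : (f.1 : ℝ) < g.1 + 1 := by linarith
  have a3 : (g.2 : ℝ) < f.2 + 1 := by linarith
  have a4 : (f.2 : ℝ) < g.2 + 1 := by linarith
  have b1 : g.1 < f.1 + 1 := by exact_mod_cast a1
  have b2 : f.1 < g.1 + 1 := by exact_mod_cast a2
  have b3 : g.2 < f.2 + 1 := by exact_mod_cast a3
  have b4 : f.2 < g.2 + 1 := by exact_mod_cast a4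
  have : g = f := Prod.ext (by omega) (by omega)
  rw [this]; exact hf

theorem cc_notMem_U {T : Temp} {f : Pt} (hf : f ∉ T.cells) : cc f ∉ U T := fun h =>
  hf (mem_U.1 h f (cc_mem_sq f))

/-- coordinates of points of a ball -/
theorem ball_coord {z w : ℂ} {r : ℝ} (h : w ∈ ball z r) :
    |w.re - z.re| < r ∧ |w.im - z.im| < r := by
  rw [mem_ball, dist_eq_norm] at h
  have h1 := Complex.abs_re_le_norm (w - z)
  have h2 := Complex.abs_im_le_norm (w - z)
  rw [Complex.sub_re] at h1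
  rw [Complex.sub_im] at h2
  exact ⟨h1.trans_lt h, h2.trans_lt h⟩

/-- the big ball around the centre -/
theorem ball_cc {T : Temp} {x : Pt} : ball (cc x) ((dF T.cells x : ℝ) - 1 / 2) ⊆ U T := by
  intro w hw
  obtain ⟨h1, h2⟩ := ball_coord hw
  rw [mem_U]
  intro k hk
  rw [mem_sq] at hk
  obtain ⟨k1, k2, k3, k4⟩ := hk
  simp only [cc] at h1 h2
  rw [abs_lt] at h1 h2
  by_contra hkD
  have hle := H904.dF_le (x := x) hkD
  obtain ⟨-, hs⟩ := H904.dn_spec x k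
  have a1 : (k.1 : ℝ) < x.1 + dF T.cells x := by linarith
  have a2 : (x.1 : ℝ) < k.1 + dF T.cells x := by linarith
  have a3 : (k.2 : ℝ) < x.2 + dF T.cells x := by linarith
  have a4 : (x.2 : ℝ) < k.2 + dF T.cells x := by linarith
  have b1 : k.1 < x.1 + dF T.cells x := by exact_mod_cast a1
  have b2 : x.1 < k.1 + dF T.cells x := by exact_mod_cast a2
  have b3 : k.2 < x.2 + dF T.cells x := by exact_mod_cast a3
  have b4 : x.2 < k.2 + dF T.cells x := by exact_mod_cast a4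
  omega

/-- the small balls around the points of the segment between adjacent cells -/
theorem ball_adj {T : Temp} {x y : Pt} (hx : x ∈ T.cells) (hy : y ∈ T.cells) (h : Adj x y)
    {s : ℝ} (hs : s ∈ Icc (0 : ℝ) 1) : ball (cc x + s * (cc y - cc x)) (1 / 2) ⊆ U T := by
  intro w hw
  obtain ⟨h1, h2⟩ := ball_coord hw
  rw [mem_U]
  intro k hk
  rw [mem_sq] at hk
  obtain ⟨k1, k2, k3, k4⟩ := hk
  have e1 : (cc x + s * (cc y - cc x)).re = x.1 + 1 / 2 + s * (y.1 - x.1) := by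
    simp [cc]
  have e2 : (cc x + s * (cc y - cc x)).im = x.2 + 1 / 2 + s * (y.2 - x.2) := by
    simp [cc]
  rw [e1] at h1
  rw [e2] at h2
  rw [abs_lt] at h1 h2
  obtain ⟨s0, s1⟩ := hs
  have key : ∀ (p q k : ℤ) (w : ℝ), p ≤ q → -(1 / 2) < w - (p + 1 / 2 + s * (q - p)) →
      w - (p + 1 / 2 + s * (q - p)) < 1 / 2 → (k : ℝ) ≤ w → w ≤ k + 1 → p ≤ k ∧ k ≤ q := by
    intro p q k w hpq c1 c2 c3 c4
    have hpq' : (p : ℝ) ≤ q := by exact_mod_cast hpq
    have d1 : (p : ℝ) < k + 1 := by nlinarith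
    have d2 : (k : ℝ) < q + 1 := by nlinarith
    have d1' : p < k + 1 := by exact_mod_cast d1
    have d2' : k < q + 1 := by exact_mod_cast d2
    omega
  have key' : ∀ (p q k : ℤ) (w : ℝ), q ≤ p → -(1 / 2) < w - (p + 1 / 2 + s * (q - p)) →
      w - (p + 1 / 2 + s * (q - p)) < 1 / 2 → (k : ℝ) ≤ w → w ≤ k + 1 → q ≤ k ∧ k ≤ p := by
    intro p q k w hpq c1 c2 c3 c4
    have hpq' : (q : ℝ) ≤ p := by exact_mod_cast hpq
    have d1 : (q : ℝ) < k + 1 := by nlinarith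
    have d2 : (k : ℝ) < p + 1 := by nlinarith
    have d1' : q < k + 1 := by exact_mod_cast d1
    have d2' : k < p + 1 := by exact_mod_cast d2
    omega
  have hk1 : (x.1 ≤ k.1 ∧ k.1 ≤ y.1) ∨ (y.1 ≤ k.1 ∧ k.1 ≤ x.1) := by
    rcases le_total x.1 y.1 with h3 | h3
    · exact Or.inl (key _ _ _ _ h3 h1.1 h1.2 k1 k2)
    · exact Or.inr (key' _ _ _ _ h3 h1.1 h1.2 k1 k2)
  have hk2 : (x.2 ≤ k.2 ∧ k.2 ≤ y.2) ∨ (y.2 ≤ k.2 ∧ k.2 ≤ x.2) := by
    rcases le_total x.2 y.2 with h3 | h3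
    · exact Or.inl (key _ _ _ _ h3 h2.1 h2.2 k3 k4)
    · exact Or.inr (key' _ _ _ _ h3 h2.1 h2.2 k3 k4)
  have : k = x ∨ k = y := by
    unfold Adj at h
    rw [Prod.ext_iff, Prod.ext_iff]
    rcases abs_cases (x.1 - y.1) with ⟨g1, g2⟩ | ⟨g1, g2⟩ <;>
      rcases abs_cases (x.2 - y.2) with ⟨g3, g4⟩ | ⟨g3, g4⟩ <;> omega
  rcases this with h3 | h3 <;> rw [h3] <;> assumption

theorem norm_cc_sub {x y : Pt} (h : Adj x y) : ‖cc y - cc x‖ = 1 := by
  have e : cc y - cc x = ⟨((y.1 - x.1 : ℤ) : ℝ), ((y.2 - x.2 : ℤ) : ℝ)⟩ := by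
    apply Complex.ext
    · simp [cc]
    · simp [cc]
  rw [e]
  have h2 : ‖(⟨((y.1 - x.1 : ℤ) : ℝ), ((y.2 - x.2 : ℤ) : ℝ)⟩ : ℂ)‖ ^ 2 = 1 := by
    rw [← Complex.normSq_eq_norm_sq, Complex.normSq_apply]
    have : (y.1 - x.1) * (y.1 - x.1) + (y.2 - x.2) * (y.2 - x.2) = 1 := by
      unfold Adj at h
      rcases abs_cases (x.1 - y.1) with ⟨g1, g2⟩ | ⟨g1, g2⟩ <;>
        rcases abs_cases (x.2 - y.2) with ⟨g3, g4⟩ | ⟨g3, g4⟩
      all_goals
        have h5 : (x.1 - y.1 = 0 ∧ (x.2 - y.2 = 1 ∨ x.2 - y.2 = -1)) ∨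
          (x.2 - y.2 = 0 ∧ (x.1 - y.1 = 1 ∨ x.1 - y.1 = -1)) := by omega
        rcases h5 with ⟨h6, h7 | h7⟩ | ⟨h6, h7 | h7⟩
        · have e1 : y.1 - x.1 = 0 := by omega
          have e2 : y.2 - x.2 = -1 := by omega
          rw [e1, e2]; norm_num
        · have e1 : y.1 - x.1 = 0 := by omega
          have e2 : y.2 - x.2 = 1 := by omega
          rw [e1, e2]; norm_num
        · have e1 : y.2 - x.2 = 0 := by omega
          have e2 : y.1 - x.1 = -1 := by omega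
          rw [e1, e2]; norm_num
        · have e1 : y.2 - x.2 = 0 := by omega
          have e2 : y.1 - x.1 = 1 := by omega
          rw [e1, e2]; norm_num
    show ((y.1 - x.1 : ℤ) : ℝ) * ((y.1 - x.1 : ℤ) : ℝ)
      + ((y.2 - x.2 : ℤ) : ℝ) * ((y.2 - x.2 : ℤ) : ℝ) = 1
    exact_mod_cast this
  have h3 := norm_nonneg (⟨((y.1 - x.1 : ℤ) : ℝ), ((y.2 - x.2 : ℤ) : ℝ)⟩ : ℂ)
  nlinarith

/-- a Riemann map of the polygon -/
structure IsRM (T : Temp) (φ : ℂ → ℂ) : Prop where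
  diff : DifferentiableOn ℂ φ (U T)
  inj : InjOn φ (U T)
  img : φ '' U T = ball 0 1

variable {T : Temp} {φ : ℂ → ℂ}

theorem IsRM.lt (h : IsRM T φ) {z : ℂ} (hz : z ∈ U T) : ‖φ z‖ < 1 := by
  have : φ z ∈ ball (0 : ℂ) 1 := by rw [← h.img]; exact mem_image_of_mem _ hz
  rwa [mem_ball_zero_iff] at this

/-- **adjacent cells** -/
theorem hyp_adj (h : IsRM T φ) {x y : Pt} (hx : x ∈ T.cells) (hy : y ∈ T.cells) (hxy : Adj x y) :
    hyp (φ (cc x)) (φ (cc y)) ≤ 18 * wt T x := by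
  have h0 : (1 : ℝ) ≤ dF T.cells x := by
    exact_mod_cast H904.dF_pos (exists_notMem_cells T) hx
  set d : ℝ := (dF T.cells x : ℝ) with hd
  have hn := norm_cc_sub hxy
  have hr0 : 0 < (1 + d) / 6 := by positivity
  have hseg : ∀ s ∈ Icc (0 : ℝ) 1, ball (cc x + s * (cc y - cc x)) ((1 + d) / 6) ⊆ U T := by
    intro s hs
    rcases le_or_gt d 2 with h2 | h2
    · exact (ball_subset_ball (by linarith)).trans (ball_adj hx hy hxy hs)
    · refine Subset.trans ?_ (ball_cc (x := x))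
      refine ball_subset_ball' ?_
      rw [dist_eq_norm, add_sub_cancel_left, norm_mul, hn, mul_one, Complex.norm_real,
        Real.norm_of_nonneg hs.1]
      have := hs.2
      linarith
  have := hyp_le_of_seg h.diff (fun z hz => h.lt hz) hr0 hseg
  rw [hn] at this
  refine this.trans (le_of_eq ?_)
  unfold wt
  rw [← hd]
  field_simp
  norm_num

/-- **the hyperbolic distance of two cells is at most a constant times their distance `kc`** -/
theorem hyp_le_kc (h : IsRM T φ) {x y : Pt} (hx : x ∈ T.cells) (hy : y ∈ T.cells) :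
    hyp (φ (cc x)) (φ (cc y)) ≤ 18 * kc T x y := by
  have := le_kc (T := T) (r := fun z => hyp (φ (cc x)) (φ (cc z))) (C := 18) (by
    intro u hu v hv huv
    have h1 := hyp_triangle (h.lt (cc_mem_U hx)) (h.lt (cc_mem_U hu)) (h.lt (cc_mem_U hv))
    have h2 := hyp_adj h hu hv huv
    have h3 := wt_pos T v
    linarith) hx hy
  simpa [hyp_self] using this

/-- **a point of a cell and the centre** -/
theorem hyp_cell (h : IsRM T φ) {f : Pt} (hf : f ∈ T.cells) {z : ℂ} (hz : z ∈ sq f)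
    (hb : ball z (1 / 8) ⊆ U T) : hyp (φ z) (φ (cc f)) ≤ 72 := by
  rw [mem_sq] at hz
  obtain ⟨z1, z2, z3, z4⟩ := hz
  have hn : ‖cc f - z‖ ≤ 1 := by
    have h1 := Complex.norm_le_abs_re_add_abs_im (cc f - z)
    have h2 : |(cc f - z).re| ≤ 1 / 2 := by
      rw [Complex.sub_re, abs_le]; simp only [cc]; constructor <;> linarith
    have h3 : |(cc f - z).im| ≤ 1 / 2 := by
      rw [Complex.sub_im, abs_le]; simp only [cc]; constructor <;> linarith
    linarith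
  have hseg : ∀ s ∈ Icc (0 : ℝ) 1, ball (z + s * (cc f - z)) (1 / 24) ⊆ U T := by
    intro s hs
    obtain ⟨s0, s1⟩ := hs
    rcases le_total s (1 / 12) with h2 | h2
    · refine Subset.trans (ball_subset_ball' ?_) hb
      rw [dist_eq_norm, add_sub_cancel_left, norm_mul, Complex.norm_real, Real.norm_of_nonneg s0]
      nlinarith
    · intro w hw
      obtain ⟨h3, h4⟩ := ball_coord hw
      have e1 : (z + s * (cc f - z)).re = z.re + s * (f.1 + 1 / 2 - z.re) := by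
        simp [cc]
      have e2 : (z + s * (cc f - z)).im = z.im + s * (f.2 + 1 / 2 - z.im) := by
        simp [cc]
      rw [e1, abs_lt] at h3
      rw [e2, abs_lt] at h4
      rw [mem_U]
      intro g hg
      rw [mem_sq] at hg
      obtain ⟨g1, g2, g3, g4⟩ := hg
      have a1 : (g.1 : ℝ) < f.1 + 1 := by nlinarith
      have a2 : (f.1 : ℝ) < g.1 + 1 := by nlinarith
      have a3 : (g.2 : ℝ) < f.2 + 1 := by nlinarith
      have a4 : (f.2 : ℝ) < g.2 + 1 := by nlinarith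
      have b1 : g.1 < f.1 + 1 := by exact_mod_cast a1
      have b2 : f.1 < g.1 + 1 := by exact_mod_cast a2
      have b3 : g.2 < f.2 + 1 := by exact_mod_cast a3
      have b4 : f.2 < g.2 + 1 := by exact_mod_cast a4
      have : g = f := Prod.ext (by omega) (by omega)
      rw [this]; exact hf
  have := hyp_le_of_seg h.diff (fun z hz => h.lt hz) (by norm_num : (0 : ℝ) < 1 / 24) hseg
  linarith

theorem compl_ne (T : Temp) : (U T)ᶜ.Nonempty := by
  obtain ⟨g, hg⟩ := exists_notMem_cells T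
  exact ⟨cc g, cc_notMem_U hg⟩

/-- the distance to the complement is at most a constant times `1 + dF` -/
theorem infDist_le {f : Pt} {z : ℂ} (hz : z ∈ sq f) :
    infDist z (U T)ᶜ ≤ 2 * (1 + (dF T.cells f : ℝ)) := by
  obtain ⟨g, hg, hgd⟩ := H904.exists_dF (exists_notMem_cells T) f
  have h1 : infDist z (U T)ᶜ ≤ dist z (cc g) := infDist_le_dist_of_mem (cc_notMem_U hg)
  refine h1.trans ?_
  rw [dist_eq_norm]
  have h2 := Complex.norm_le_abs_re_add_abs_im (z - cc g)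
  rw [mem_sq] at hz
  obtain ⟨z1, z2, z3, z4⟩ := hz
  obtain ⟨⟨s1, s2, s3, s4⟩, -⟩ := H904.dn_spec f g
  rw [hgd] at s1 s2 s3 s4
  have t1 : (f.1 : ℝ) - g.1 ≤ dF T.cells f := by exact_mod_cast s1
  have t2 : (g.1 : ℝ) - f.1 ≤ dF T.cells f := by exact_mod_cast s2
  have t3 : (f.2 : ℝ) - g.2 ≤ dF T.cells f := by exact_mod_cast s3
  have t4 : (g.2 : ℝ) - f.2 ≤ dF T.cells f := by exact_mod_cast s4
  have h3 : |(z - cc g).re| ≤ 1 / 2 + dF T.cells f := by
    rw [Complex.sub_re, abs_le]; simp only [cc]; constructor <;> linarith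
  have h4 : |(z - cc g).im| ≤ 1 / 2 + dF T.cells f := by
    rw [Complex.sub_im, abs_le]; simp only [cc]; constructor <;> linarith
  linarith

/-- **the exit** -/
theorem exit {f : Pt} (hf : f ∈ T.cells) {z q : ℂ} (hz : z ∈ sq f) (hq : q ∉ U T)
    (hzq : dist z q ≤ 1 / 8) :
    ∃ f' ∈ T.cells, (f' = f ∨ Adj f f') ∧ ∃ e, e ∉ T.cells ∧ Adj f' e := by
  rw [mem_U] at hq
  push Not at hq
  obtain ⟨g, hqg, hg⟩ := hq
  rw [mem_sq] at hqg hz
  obtain ⟨z1, z2, z3, z4⟩ := hz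
  obtain ⟨q1, q2, q3, q4⟩ := hqg
  have h1 := Complex.abs_re_le_norm (z - q)
  have h2 := Complex.abs_im_le_norm (z - q)
  rw [dist_eq_norm] at hzq
  rw [Complex.sub_re] at h1
  rw [Complex.sub_im] at h2
  have h1' := abs_le.1 (h1.trans hzq)
  have h2' := abs_le.1 (h2.trans hzq)
  have a1 : (f.1 : ℝ) < g.1 + 2 := by linarith
  have a2 : (g.1 : ℝ) < f.1 + 2 := by linarith
  have a3 : (f.2 : ℝ) < g.2 + 2 := by linarith
  have a4 : (g.2 : ℝ) < f.2 + 2 := by linarith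
  have b1 : f.1 < g.1 + 2 := by exact_mod_cast a1
  have b2 : g.1 < f.1 + 2 := by exact_mod_cast a2
  have b3 : f.2 < g.2 + 2 := by exact_mod_cast a3
  have b4 : g.2 < f.2 + 2 := by exact_mod_cast a4
  have hne : f ≠ g := fun h => hg (h ▸ hf)
  have adj_of : ∀ u v : Pt, (u.1 = v.1 ∧ (u.2 = v.2 + 1 ∨ v.2 = u.2 + 1)) ∨
      (u.2 = v.2 ∧ (u.1 = v.1 + 1 ∨ v.1 = u.1 + 1)) → Adj u v := by
    intro u v huv
    unfold Adj
    rcases abs_cases (u.1 - v.1) with ⟨g1, g2⟩ | ⟨g1, g2⟩ <;>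
      rcases abs_cases (u.2 - v.2) with ⟨g3, g4⟩ | ⟨g3, g4⟩ <;> omega
  by_cases e1 : f.1 = g.1
  · have e2 : f.2 ≠ g.2 := fun e2 => hne (Prod.ext e1 e2)
    exact ⟨f, hf, Or.inl rfl, g, hg, adj_of _ _ (by omega)⟩
  · by_cases e2 : f.2 = g.2
    · exact ⟨f, hf, Or.inl rfl, g, hg, adj_of _ _ (by omega)⟩
    · have hfm : Adj f (g.1, f.2) := adj_of f (g.1, f.2) (Or.inr ⟨rfl, by
        show f.1 = g.1 + 1 ∨ g.1 = f.1 + 1
        omega⟩)
      by_cases hm : ((g.1, f.2) : Pt) ∈ T.cells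
      · exact ⟨(g.1, f.2), hm, Or.inr hfm, g, hg, adj_of (g.1, f.2) g (Or.inl ⟨rfl, by
          show f.2 = g.2 + 1 ∨ g.2 = f.2 + 1
          omega⟩)⟩
      · exact ⟨f, hf, Or.inl rfl, _, hm, hfm⟩

end Vale.Agent.P155.T211B
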