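import Mathlib

/-!
# P155, BD block, geometric half of R1: metrics of weighted graphs

`WG V` is a finite connected graph with positive lengths of the edges, `k` its metric.
Minimal paths exist (`exists_geo`), sums of `exp (-c k(w, ·))` along a minimal path
(`geo_sum`), the tripod inequality (`tripod`).
-/

open Finset

namespace Vale.Agent.P155.T211B

/-- a connected graph with lengths of the edges -/
structure WG (V : Type*) where
  adj : V → V → Prop
  w : V → V → ℝ
  symm : ∀ x y, adj x y → adj y x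
  wsymm : ∀ x y, w x y = w y x
  pos : ∀ x y, adj x y → 0 < w x y
  conn : ∀ x y, ∃ (m : ℕ) (z : ℕ → V), z 0 = x ∧ z m = y ∧ ∀ i < m, adj (z i) (z (i + 1))

namespace WG

variable {V : Type*} (G : WG V)

/-- a path with `m` steps -/
def IsPath (m : ℕ) (z : ℕ → V) (x y : V) : Prop :=
  z 0 = x ∧ z m = y ∧ ∀ i < m, G.adj (z i) (z (i + 1))

/-- the length of the first `m` steps -/
def len (m : ℕ) (z : ℕ → V) : ℝ := ∑ i ∈ range m, G.w (z i) (z (i + 1))

/-- the metric -/
noncomputable def k (x y : V) : ℝ := sInf {l : ℝ | ∃ m z, G.IsPath m z x y ∧ G.len m z = l}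

/-- a minimal path -/
def IsGeo (m : ℕ) (z : ℕ → V) (x y : V) : Prop := G.IsPath m z x y ∧ G.len m z = G.k x y

theorem len_nonneg {m : ℕ} {z : ℕ → V} {x y : V} (h : G.IsPath m z x y) : 0 ≤ G.len m z :=
  Finset.sum_nonneg fun i hi => (G.pos _ _ (h.2.2 i (Finset.mem_range.1 hi))).le

theorem bdd (x y : V) : BddBelow {l : ℝ | ∃ m z, G.IsPath m z x y ∧ G.len m z = l} :=
  ⟨0, by rintro _ ⟨m, z, h, rfl⟩; exact G.len_nonneg h⟩

theorem ne (x y : V) : {l : ℝ | ∃ m z, G.IsPath m z x y ∧ G.len m z = l}.Nonempty := by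
  obtain ⟨m, z, h⟩ := G.conn x y
  exact ⟨_, m, z, h, rfl⟩

theorem k_nonneg (x y : V) : 0 ≤ G.k x y :=
  le_csInf (G.ne x y) (by rintro _ ⟨m, z, h, rfl⟩; exact G.len_nonneg h)

theorem k_le {m : ℕ} {z : ℕ → V} {x y : V} (h : G.IsPath m z x y) : G.k x y ≤ G.len m z :=
  csInf_le (G.bdd x y) ⟨m, z, h, rfl⟩

theorem k_self (x : V) : G.k x x = 0 := by
  refine le_antisymm ?_ (G.k_nonneg x x)
  have h : G.IsPath 0 (fun _ => x) x x := ⟨rfl, rfl, fun i hi => absurd hi (Nat.not_lt_zero i)⟩
  have := G.k_le h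
  simpa [len] using this

theorem k_adj {x y : V} (h : G.adj x y) : G.k x y ≤ G.w x y := by
  have hp : G.IsPath 1 (fun i => if i = 0 then x else y) x y := by
    refine ⟨by simp, by simp, fun i hi => ?_⟩
    have : i = 0 := by omega
    subst this
    simpa using h
  have := G.k_le hp
  simpa [len] using this

/-- the reversed path -/
theorem isPath_rev {m : ℕ} {z : ℕ → V} {x y : V} (h : G.IsPath m z x y) :
    G.IsPath m (fun i => z (m - i)) y x := by
  refine ⟨by simpa using h.2.1, by simpa using h.1, fun i hi => ?_⟩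
  have e : m - i = (m - (i + 1)) + 1 := by omega
  have := h.2.2 (m - (i + 1)) (by omega)
  simp only
  rw [e]
  exact G.symm _ _ this

theorem len_rev {m : ℕ} (z : ℕ → V) : G.len m (fun i => z (m - i)) = G.len m z := by
  unfold len
  rw [← Finset.sum_range_reflect]
  refine Finset.sum_congr rfl fun i hi => ?_
  rw [Finset.mem_range] at hi
  have e1 : m - (m - 1 - i) = i + 1 := by omega
  have e2 : m - (m - 1 - i + 1) = i := by omega
  simp only [e1, e2]
  rw [G.wsymm]

theorem k_comm_le (x y : V) : G.k y x ≤ G.k x y := by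
  refine le_csInf (G.ne x y) ?_
  rintro _ ⟨m, z, h, rfl⟩
  rw [← G.len_rev]
  exact G.k_le (G.isPath_rev h)

theorem k_comm (x y : V) : G.k x y = G.k y x := le_antisymm (G.k_comm_le y x) (G.k_comm_le x y)

/-- concatenation -/
theorem isPath_app {m m' : ℕ} {z z' : ℕ → V} {x y u : V} (h : G.IsPath m z x y)
    (h' : G.IsPath m' z' y u) :
    G.IsPath (m + m') (fun i => if i ≤ m then z i else z' (i - m)) x u := by
  refine ⟨by simp [h.1], ?_, fun i hi => ?_⟩
  · by_cases h0 : m' = 0
    · subst h0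
      simp only [add_zero, le_refl, if_true]
      rw [h.2.1, ← h'.1, h'.2.1]
    · have : ¬ (m + m' ≤ m) := by omega
      simp only [this, if_false]
      rw [show m + m' - m = m' by omega, h'.2.1]
  · by_cases h1 : i + 1 ≤ m
    · have h2 : i ≤ m := by omega
      simp only [h1, h2, if_true]
      exact h.2.2 i (by omega)
    · by_cases h2 : i ≤ m
      · have h3 : i = m := by omega
        subst h3
        simp only [le_refl, if_true, h1, if_false]
        rw [show i + 1 - i = 0 + 1 by omega, h.2.1, ← h'.1]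
        exact h'.2.2 0 (by omega)
      · simp only [h1, h2, if_false]
        rw [show i + 1 - m = (i - m) + 1 by omega]
        exact h'.2.2 (i - m) (by omega)

theorem len_app {m m' : ℕ} {z z' : ℕ → V} {x y u : V} (h : G.IsPath m z x y)
    (h' : G.IsPath m' z' y u) :
    G.len (m + m') (fun i => if i ≤ m then z i else z' (i - m)) = G.len m z + G.len m' z' := by
  unfold len
  rw [Finset.sum_range_add]
  congr 1
  · refine Finset.sum_congr rfl fun i hi => ?_
    rw [Finset.mem_range] at hi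
    have h1 : i + 1 ≤ m := by omega
    have h2 : i ≤ m := by omega
    simp only [h1, h2, if_true]
  · refine Finset.sum_congr rfl fun i hi => ?_
    rw [Finset.mem_range] at hi
    have h1 : ¬ (m + i + 1 ≤ m) := by omega
    simp only [h1, if_false]
    by_cases h0 : i = 0
    · subst h0
      simp only [add_zero, le_refl, if_true]
      rw [h.2.1, ← h'.1]
      congr 2
      omega
    · have h2 : ¬ (m + i ≤ m) := by omega
      simp only [h2, if_false]
      rw [show m + i - m = i by omega, show m + i + 1 - m = i + 1 by omega]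

theorem k_triangle (x y u : V) : G.k x u ≤ G.k x y + G.k y u := by
  have h1 : ∀ l ∈ {l : ℝ | ∃ m z, G.IsPath m z x y ∧ G.len m z = l},
      ∀ l' ∈ {l : ℝ | ∃ m z, G.IsPath m z y u ∧ G.len m z = l}, G.k x u ≤ l + l' := by
    rintro _ ⟨m, z, h, rfl⟩ _ ⟨m', z', h', rfl⟩
    rw [← G.len_app h h']
    exact G.k_le (G.isPath_app h h')
  have h2 : ∀ l ∈ {l : ℝ | ∃ m z, G.IsPath m z x y ∧ G.len m z = l}, G.k x u - l ≤ G.k y u := by
    intro l hl
    refine le_csInf (G.ne y u) fun l' hl' => ?_
    linarith [h1 l hl l' hl']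
  have h3 : G.k x u - G.k y u ≤ G.k x y := by
    refine le_csInf (G.ne x y) fun l hl => ?_
    linarith [h2 l hl]
  linarith

/-- a subpath -/
theorem isPath_sub {m : ℕ} {z : ℕ → V} {x y : V} (h : G.IsPath m z x y) {i j : ℕ} (hij : i ≤ j)
    (hj : j ≤ m) : G.IsPath (j - i) (fun t => z (i + t)) (z i) (z j) := by
  refine ⟨by simp, ?_, fun t ht => ?_⟩
  · simp only
    rw [show i + (j - i) = j by omega]
  · simp only
    rw [show i + (t + 1) = i + t + 1 by omega]
    exact h.2.2 (i + t) (by omega)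

theorem len_sub (z : ℕ → V) {i j : ℕ} (hij : i ≤ j) :
    G.len (j - i) (fun t => z (i + t)) = G.len j z - G.len i z := by
  unfold len
  have : ∑ t ∈ range j, G.w (z t) (z (t + 1)) = ∑ t ∈ range (i + (j - i)), G.w (z t) (z (t + 1)) := by
    rw [show i + (j - i) = j by omega]
  rw [this, Finset.sum_range_add, add_sub_cancel_left]
  refine Finset.sum_congr rfl fun t _ => ?_
  simp only [show i + (t + 1) = i + t + 1 by omega]

/-- **minimal paths exist** -/
theorem exists_geo [Finite V] (x y : V) : ∃ m z, G.IsGeo m z x y := by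
  classical
  have := Fintype.ofFinite V
  -- a lower bound for the lengths of the edges
  obtain ⟨δ, hδ, hlb⟩ : ∃ δ : ℝ, 0 < δ ∧ ∀ a b, G.adj a b → δ ≤ G.w a b := by
    set S : Finset (V × V) := Finset.univ.filter fun p => G.adj p.1 p.2 with hS
    by_cases hne : S.Nonempty
    · obtain ⟨p, hp, hmin⟩ := S.exists_min_image (fun p => G.w p.1 p.2) hne
      refine ⟨G.w p.1 p.2, G.pos _ _ (Finset.mem_filter.1 hp).2, fun a b hab => ?_⟩
      exact hmin (a, b) (Finset.mem_filter.2 ⟨Finset.mem_univ _, hab⟩)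
    · refine ⟨1, one_pos, fun a b hab => ?_⟩
      exact absurd ⟨(a, b), Finset.mem_filter.2 ⟨Finset.mem_univ _, hab⟩⟩ hne
  obtain ⟨m0, z0, h0⟩ := G.conn x y
  obtain ⟨M, hM⟩ := exists_nat_gt (G.len m0 z0 / δ)
  have hM' : G.len m0 z0 < M * δ := by rwa [div_lt_iff₀ hδ] at hM
  -- the lengths of the short paths
  set A : Set ℝ := {l : ℝ | ∃ m z, G.IsPath m z x y ∧ G.len m z = l ∧ l ≤ G.len m0 z0} with hA
  have hfin : A.Finite := by
    set F : Fin (M + 1) × (Fin (M + 1) → V) → ℝ := fun p =>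
      ∑ i ∈ range p.1.1, G.w (p.2 ⟨min i M, by omega⟩) (p.2 ⟨min (i + 1) M, by omega⟩) with hF
    refine (Set.finite_range F).subset ?_
    rintro l ⟨m, z, h, rfl, hl⟩
    have hm : m ≤ M := by
      by_contra hcon
      push Not at hcon
      have h1 : (m : ℝ) * δ ≤ G.len m z := by
        unfold len
        have : ∑ _i ∈ range m, δ ≤ ∑ i ∈ range m, G.w (z i) (z (i + 1)) :=
          Finset.sum_le_sum fun i hi => hlb _ _ (h.2.2 i (Finset.mem_range.1 hi))
        simpa using this
      have h2 : (M : ℝ) * δ ≤ m * δ := by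
        have : (M : ℝ) ≤ m := by exact_mod_cast hcon.le
        gcongr
      linarith
    refine ⟨(⟨m, by omega⟩, fun i => z i.1), ?_⟩
    simp only [hF, len]
    refine Finset.sum_congr rfl fun i hi => ?_
    rw [Finset.mem_range] at hi
    rw [show min i M = i by omega, show min (i + 1) M = i + 1 by omega]
  have hne : A.Nonempty := ⟨_, m0, z0, h0, rfl, le_rfl⟩
  obtain ⟨l, ⟨m, z, h, hl, hle⟩, hmin⟩ := Set.exists_min_image A id hfin hne
  refine ⟨m, z, h, le_antisymm ?_ (G.k_le h)⟩
  refine le_csInf (G.ne x y) ?_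
  rintro _ ⟨m', z', h', rfl⟩
  rw [hl]
  by_cases hc : G.len m' z' ≤ G.len m0 z0
  · exact hmin _ ⟨m', z', h', rfl, hc⟩
  · push Not at hc
    linarith

variable {G}

/-- the distances along a minimal path -/
theorem IsGeo.k_eq {m : ℕ} {z : ℕ → V} {x y : V} (h : G.IsGeo m z x y) {i j : ℕ} (hij : i ≤ j)
    (hj : j ≤ m) : G.k (z i) (z j) = G.len j z - G.len i z := by
  refine le_antisymm ?_ ?_
  · rw [← G.len_sub z hij]
    exact G.k_le (G.isPath_sub h.1 hij hj)
  · have h1 := G.k_triangle x (z i) y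
    have h2 := G.k_triangle (z i) (z j) y
    have h3 : G.k x (z i) ≤ G.len i z := by
      have := G.k_le (G.isPath_sub h.1 (Nat.zero_le i) (hij.trans hj))
      rw [G.len_sub z (Nat.zero_le i), h.1.1] at this
      simpa [len] using this
    have h4 : G.k (z j) y ≤ G.len m z - G.len j z := by
      have := G.k_le (G.isPath_sub h.1 hj le_rfl)
      rwa [G.len_sub z hj, h.1.2.1] at this
    have h5 := h.2
    linarith

theorem IsGeo.k_zero {m : ℕ} {z : ℕ → V} {x y : V} (h : G.IsGeo m z x y) {i : ℕ} (hi : i ≤ m) :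
    G.k x (z i) = G.len i z := by
  have := h.k_eq (Nat.zero_le i) hi
  rw [h.1.1] at this
  simpa [len] using this

theorem IsGeo.k_last {m : ℕ} {z : ℕ → V} {x y : V} (h : G.IsGeo m z x y) {i : ℕ} (hi : i ≤ m) :
    G.k (z i) y = G.len m z - G.len i z := by
  have := h.k_eq hi le_rfl
  rwa [h.1.2.1] at this

/-- **the tripod inequality** -/
theorem tripod {m m' : ℕ} {z z' : ℕ → V} {v a b : V} (h : G.IsGeo m z v a)
    (h' : G.IsGeo m' z' v b) {i j : ℕ} (hi : i ≤ m) (hj : j ≤ m') :
    G.k a b ≤ G.k b (z i) + G.k a (z' j) := by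
  have e1 := h.k_zero hi
  have e2 := h.k_last hi
  have e3 := h'.k_zero hj
  have e4 := h'.k_last hj
  have e5 := h.2
  have e6 := h'.2
  have t1 := G.k_triangle b (z i) a
  have t2 := G.k_triangle b (z i) v
  have t3 := G.k_triangle a (z' j) b
  have t4 := G.k_triangle a (z' j) v
  have c1 := G.k_comm b a
  have c2 := G.k_comm b v
  have c3 := G.k_comm a v
  have c4 := G.k_comm (z i) v
  have c5 := G.k_comm (z' j) v
  linarith

/-- one side of the sum -/
theorem sum_exp_up {a : ℝ} (ha : 0 < a) {τ : ℝ} {m : ℕ} (S : ℕ → ℝ)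
    (hS : ∀ i < m, 0 ≤ S (i + 1) - S i ∧ S (i + 1) - S i ≤ τ) {i0 : ℕ} (h0 : i0 ≤ m) :
    ∑ i ∈ Finset.Ico i0 m, (S (i + 1) - S i) * Real.exp (-a * (S i - S i0))
      ≤ Real.exp (a * τ) / a := by
  have key : ∀ n, i0 ≤ n → n ≤ m →
      ∑ i ∈ Finset.Ico i0 n, (S (i + 1) - S i) * Real.exp (-a * (S i - S i0))
        ≤ Real.exp (a * τ) / a * (1 - Real.exp (-a * (S n - S i0))) := by
    intro n hn
    induction n, hn using Nat.le_induction with
    | base => intro _; simp
    | succ n hn ih =>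
      intro hm
      rw [Finset.sum_Ico_succ_top hn]
      have h1 := ih (by omega)
      obtain ⟨h2, h3⟩ := hS n (by omega)
      set t := S (n + 1) - S n with ht
      have e : Real.exp (-a * (S (n + 1) - S i0)) = Real.exp (-a * (S n - S i0)) * Real.exp (-a * t) := by
        rw [← Real.exp_add]; congr 1; rw [ht]; ring
      rw [e]
      set E := Real.exp (-a * (S n - S i0)) with hE
      have hEp : 0 < E := Real.exp_pos _
      have h4 : t ≤ Real.exp (a * τ) / a * (1 - Real.exp (-a * t)) := by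
        have h5 : a * t + 1 ≤ Real.exp (a * t) := Real.add_one_le_exp _
        have h6 : Real.exp (a * t) * Real.exp (-a * t) = 1 := by
          rw [← Real.exp_add]; simp
        have h7 : 0 < Real.exp (-a * t) := Real.exp_pos _
        have h8 : a * t * Real.exp (-a * t) ≤ 1 - Real.exp (-a * t) := by nlinarith
        have h9 : 1 ≤ Real.exp (a * τ) * Real.exp (-a * t) := by
          rw [← Real.exp_add]
          apply Real.one_le_exp
          nlinarith
        rw [div_mul_eq_mul_div, le_div_iff₀ ha]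
        have h10 : Real.exp (a * τ) * (a * t * Real.exp (-a * t))
            ≤ Real.exp (a * τ) * (1 - Real.exp (-a * t)) := by gcongr
        nlinarith [mul_nonneg ha.le h2]
      nlinarith [mul_le_mul_of_nonneg_right h4 hEp.le]
  refine (key m h0 le_rfl).trans ?_
  have : 0 < Real.exp (-a * (S m - S i0)) := Real.exp_pos _
  have h2 : 0 < Real.exp (a * τ) / a := by positivity
  nlinarith

/-- the other side -/
theorem sum_exp_down {a : ℝ} (ha : 0 < a) {m : ℕ} (S : ℕ → ℝ)
    (hS : ∀ i < m, 0 ≤ S (i + 1) - S i) {i0 : ℕ} (h0 : i0 ≤ m) :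
    ∑ i ∈ Finset.range i0, (S (i + 1) - S i) * Real.exp (-a * (S i0 - S i)) ≤ 1 / a := by
  have key : ∀ n, n ≤ i0 →
      ∑ i ∈ Finset.range n, (S (i + 1) - S i) * Real.exp (-a * (S i0 - S i))
        ≤ 1 / a * Real.exp (-a * (S i0 - S n)) := by
    intro n
    induction n with
    | zero => intro _; simp; positivity
    | succ n ih =>
      intro hm
      rw [Finset.sum_range_succ]
      have h1 := ih (by omega)
      have h2 := hS n (by omega)
      set t := S (n + 1) - S n with ht
      have e : Real.exp (-a * (S i0 - S (n + 1))) = Real.exp (-a * (S i0 - S n)) * Real.exp (a * t) := by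
        rw [← Real.exp_add]; congr 1; rw [ht]; ring
      rw [e]
      set E := Real.exp (-a * (S i0 - S n)) with hE
      have hEp : 0 < E := Real.exp_pos _
      have h5 : a * t + 1 ≤ Real.exp (a * t) := Real.add_one_le_exp _
      have h6 : t ≤ 1 / a * (Real.exp (a * t) - 1) := by
        rw [one_div, inv_mul_eq_div, le_div_iff₀ ha]
        linarith
      nlinarith [mul_le_mul_of_nonneg_right h6 hEp.le]
  refine (key i0 le_rfl).trans ?_
  simp

/-- **sums along a minimal path** -/
theorem IsGeo.sum_exp {m : ℕ} {z : ℕ → V} {x y : V} (h : G.IsGeo m z x y) {τ : ℝ}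
    (hτ : ∀ i < m, G.w (z i) (z (i + 1)) ≤ τ) {c : ℝ} (hc : 0 < c) (u : V) {μ : ℝ}
    {i0 : ℕ} (hi0 : i0 ≤ m) (hμ : G.k u (z i0) = μ) (hμ' : ∀ i ≤ m, μ ≤ G.k u (z i)) :
    ∑ i ∈ range m, G.w (z i) (z (i + 1)) * Real.exp (-c * G.k u (z i))
      ≤ 4 / c * (1 + Real.exp (c / 4 * τ)) * Real.exp (-(c / 2) * μ) := by
  set S : ℕ → ℝ := fun i => G.len i z with hSd
  have hstep : ∀ i, S (i + 1) - S i = G.w (z i) (z (i + 1)) := by
    intro i
    simp only [hSd, len]
    rw [Finset.sum_range_succ]; ring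
  have hS : ∀ i < m, 0 ≤ S (i + 1) - S i ∧ S (i + 1) - S i ≤ τ := by
    intro i hi
    rw [hstep]
    exact ⟨(G.pos _ _ (h.1.2.2 i hi)).le, hτ i hi⟩
  have hlow : ∀ i ≤ m, μ / 2 + |S i - S i0| / 4 ≤ G.k u (z i) := by
    intro i hi
    have h1 := hμ' i hi
    have h2 : |S i - S i0| ≤ G.k (z i) (z i0) := by
      rcases le_total i i0 with hh | hh
      · rw [h.k_eq hh hi0, abs_sub_comm]
        have : 0 ≤ G.len i0 z - G.len i z := by
          rw [← G.len_sub z hh]
          exact G.len_nonneg (G.isPath_sub h.1 hh hi0)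
        rw [abs_of_nonneg this]
      · rw [G.k_comm, h.k_eq hh hi]
        have : 0 ≤ G.len i z - G.len i0 z := by
          rw [← G.len_sub z hh]
          exact G.len_nonneg (G.isPath_sub h.1 hh hi)
        rw [abs_of_nonneg this]
    have h3 := G.k_triangle (z i) u (z i0)
    have h4 := G.k_comm (z i) u
    linarith
  have hbd : ∀ i ∈ range m, G.w (z i) (z (i + 1)) * Real.exp (-c * G.k u (z i))
      ≤ (S (i + 1) - S i) * Real.exp (-(c / 4) * |S i - S i0|) * Real.exp (-(c / 2) * μ) := by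
    intro i hi
    rw [Finset.mem_range] at hi
    rw [hstep, mul_assoc, ← Real.exp_add]
    have hw := (G.pos _ _ (h.1.2.2 i hi)).le
    gcongr
    have := hlow i hi.le
    nlinarith
  refine (Finset.sum_le_sum hbd).trans ?_
  rw [← Finset.sum_mul]
  refine mul_le_mul_of_nonneg_right ?_ (Real.exp_pos _).le
  rw [← Finset.sum_range_add_sum_Ico _ hi0]
  have ha : 0 < c / 4 := by positivity
  have u1 := sum_exp_up ha S hS hi0
  have u2 := sum_exp_down ha S (fun i hi => (hS i hi).1) hi0
  have hmono : ∀ i j, i ≤ j → j ≤ m → S i ≤ S j := by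
    intro i j hij hj
    have := G.len_nonneg (G.isPath_sub h.1 hij hj)
    rw [G.len_sub z hij] at this
    simp only [hSd]
    linarith
  have e1 : ∑ i ∈ Finset.Ico i0 m, (S (i + 1) - S i) * Real.exp (-(c / 4) * |S i - S i0|)
      = ∑ i ∈ Finset.Ico i0 m, (S (i + 1) - S i) * Real.exp (-(c / 4) * (S i - S i0)) := by
    refine Finset.sum_congr rfl fun i hi => ?_
    rw [Finset.mem_Ico] at hi
    rw [abs_of_nonneg (by linarith [hmono i0 i hi.1 hi.2.le])]
  have e2 : ∑ i ∈ Finset.range i0, (S (i + 1) - S i) * Real.exp (-(c / 4) * |S i - S i0|)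
      = ∑ i ∈ Finset.range i0, (S (i + 1) - S i) * Real.exp (-(c / 4) * (S i0 - S i)) := by
    refine Finset.sum_congr rfl fun i hi => ?_
    rw [Finset.mem_range] at hi
    rw [abs_sub_comm, abs_of_nonneg (by linarith [hmono i i0 hi.le hi0])]
  rw [e1, e2]
  have e3 : 4 / c * (1 + Real.exp (c / 4 * τ)) = 1 / (c / 4) + Real.exp (c / 4 * τ) / (c / 4) := by
    field_simp
  rw [e3]
  linarith

/-- the closest point of a path -/
theorem exists_near (u : V) (m : ℕ) (z : ℕ → V) :
    ∃ i0 ≤ m, ∀ i ≤ m, G.k u (z i0) ≤ G.k u (z i) := by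
  obtain ⟨i0, hi0, hmin⟩ := (Finset.range (m + 1)).exists_min_image (fun i => G.k u (z i))
    ⟨0, by simp⟩
  exact ⟨i0, by simpa [Nat.lt_succ_iff] using hi0, fun i hi => hmin i (by simpa [Nat.lt_succ_iff] using hi)⟩

end WG

end Vale.Agent.P155.T211B
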